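import Vale.Agent.P347.Quarter.Chain.OneStep
import Mathlib.NumberTheory.Harmonic.Bounds

/-! # P347: the weighted telescope -/

open MeasureTheory ProbabilityTheory Real Filter Topology Finset
open scoped RealInnerProductSpace

namespace Vale.Agent.P347.Quarter

variable {d : ℕ} {V : Sp d → ℝ} {G : Sp d → Sp d} {H : Sp d → Sp d →L[ℝ] Sp d} {h : ℝ}

lemma Markov.iterate_sum_le {T K : (Sp d → ℝ) → Sp d → ℝ} (hT : Markov T) (hK : Markov K)
    (y : Sp d) : ∀ (n : ℕ) {f : Sp d → ℝ}, Bdd f → |T^[n] f y - K^[n] f y| ≤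
      ∑ j ∈ range n, T^[j] (fun x => |T (K^[n - 1 - j] f) x - K (K^[n - 1 - j] f) x|) y
  | 0, f, _ => by simp
  | n + 1, f, hf => by
    have h1 := Markov.iterate_sum_le hT hK y n (hK.bdd hf)
    have h2 := (hT.iterate n).abs_le ((hT.bdd hf).sub (hK.bdd hf))
      ((hT.bdd hf).sub (hK.bdd hf)).abs (fun x => le_rfl) y
    rw [(hT.iterate n).sub (hT.bdd hf) (hK.bdd hf)] at h2
    have e : ∀ j ∈ range n, K^[n - 1 - j] (K f) = K^[n + 1 - 1 - j] f := fun j hj => by
      rw [← Function.iterate_succ_apply]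
      congr 1
      rw [mem_range] at hj
      omega
    rw [sum_range_succ, Nat.add_sub_cancel, Nat.sub_self]
    simp only [Function.iterate_succ_apply, Function.iterate_zero_apply]
    refine (abs_sub_le _ (T^[n] (K f) y) _).trans (le_of_le_of_eq (add_le_add h2 h1) ?_)
    rw [add_comm]
    congr 1
    refine sum_congr rfl fun j hj => ?_
    rw [e j hj, Nat.add_sub_cancel]

/-- Gradients decay like `1 / √(i h)`. -/
lemma gsq_iter_le (hV : IsPot V G H 1 2) (hh : 0 < h) {f : Sp d → ℝ} (hf : Bdd f)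
    (hg : ∀ i, ∃ L, ContDiff ℝ 1 ((prox V h)^[i + 1] f) ∧
      ∀ x, ‖fderiv ℝ ((prox V h)^[i + 1] f) x‖ ≤ L) : ∀ (i : ℕ) (x : Sp d),
    ((i : ℝ) + 1) * h * gsq ((prox V h)^[i + 1] f) x + (prox V h)^[i + 1] f x ^ 2 ≤
      (prox V h)^[i + 1] (fun z => f z ^ 2) x
  | 0, x => by
    have := gsq_prox_le hV hh hf x
    simp only [Nat.cast_zero, zero_add, Function.iterate_one, one_mul]
    linarith
  | i + 1, x => by
    have hP := markov_prox hV hh
    obtain ⟨L, hd, hL⟩ := hg i
    have hb : Bdd ((prox V h)^[i + 1] f) := (hP.iterate (i + 1)).bdd hf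
    have hw : Bdd (gsq ((prox V h)^[i + 1] f)) := bdd_gsq hd hL
    have h1 := hP.mono ((hw.const_mul _).add hb.sq) ((hP.iterate (i + 1)).bdd hf.sq)
      (gsq_iter_le hV hh hf hg i) x
    rw [hP.add (hw.const_mul _) hb.sq, hP.smul hw] at h1
    have h2 := gsq_prox_le hV hh hb x
    have h3 := gsq_prox_contract hV hh hb hd hL x
    rw [Function.iterate_succ_apply' (prox V h) (i + 1) f,
      Function.iterate_succ_apply' (prox V h) (i + 1) (fun z => f z ^ 2)]
    set P := gsq (prox V h ((prox V h)^[i + 1] f)) x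
    have hP0 : 0 ≤ P := gsq_nonneg _ _
    have h4 : P ≤ prox V h (gsq ((prox V h)^[i + 1] f)) x := by
      refine le_trans (le_mul_of_one_le_left hP0 ?_) h3
      nlinarith
    have h5 := mul_le_mul_of_nonneg_left h4 (by positivity : 0 ≤ ((i : ℝ) + 1) * h)
    push_cast
    linarith

/-- Linear functionals are square integrable against the half law. -/
lemma memLp_half_inner (hV : IsPot V G H 1 2) (hh : 0 ≤ h) (y u : Sp d) :
    MemLp (fun x => ⟪u, x⟫) 2 (halfLaw V h y) := by
  have := isProb_rgo' hV hh y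
  have hm : Measurable fun x : Sp d => ⟪u, x⟫ := by fun_prop
  rw [halfLaw, memLp_map_measure_iff hm.aestronglyMeasurable (by fun_prop)]
  have h1 : MemLp (fun w : Sp d => ⟪u, w⟫) 2 (gd d) := by
    have hid : MemLp id 2 (gd d) := IsGaussian.memLp_id (gd d) 2 (by norm_num)
    exact (innerSL ℝ u).comp_memLp' hid
  refine (((memLp_inner hV hh y u).1.comp_measurePreserving (measurePreserving_fst (ν := gd d))).add
    ((h1.comp_measurePreserving (measurePreserving_snd (μ := rgo V h y))).const_mul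
      √(h / 2))).ae_eq (Eventually.of_forall fun p => ?_)
  simp [Function.comp, inner_add_right, real_inner_smul_right]

lemma integrable_of_inner {α : Type*} [MeasurableSpace α] {μ : Measure α} {z : α → Sp d}
    (hz : ∀ u, Integrable (fun ω => ⟪u, z ω⟫) μ) : Integrable z μ := by
  set b := EuclideanSpace.basisFun (Fin d) ℝ
  have e : z = fun ω => ∑ i, ⟪b i, z ω⟫ • b i := funext fun ω => (b.sum_repr' (z ω)).symm
  rw [e]
  exact integrable_finsetSum _ fun i _ => (hz (b i)).smul_const (b i)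

/-- One step of the approximate chain against the exact one. -/
theorem one_step (hV : IsPot V G H 1 2) (hh : 0 < h) {Ω : Type} [MeasurableSpace Ω]
    (P : Measure Ω) [IsProbabilityMeasure P] (z : Ω → Sp d → Sp d) {c m : ℝ}
    (hc : 0 ≤ c) (hm : 0 ≤ m)
    (hφ : ∀ y, ∀ φ : Sp d → ℝ, Measurable φ → MemLp φ 2 (halfLaw V h y) →
      Integrable (fun ω => φ (z ω y)) P ∧
        |(∫ ω, φ (z ω y) ∂P) - ∫ x, φ x ∂halfLaw V h y| ≤
          c * √(∫ x, φ x ^ 2 ∂halfLaw V h y))
    (hz : ∀ y, ‖(∫ ω, z ω y ∂P) - ∫ x, x ∂rgo V h y‖ ≤ m) {g : Sp d → ℝ} (hg : Bdd g) :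
    (∀ y, |approx P h z g y - prox V h g y| ≤ c * √(prox V h (fun x => g x ^ 2) y)) ∧
    ∀ {L : ℝ}, ContDiff ℝ 1 g → (∀ x, ‖fderiv ℝ g x‖ ≤ L) → ∀ y,
      |approx P h z g y - prox V h g y| ≤
        c * √(2 * h * ((prox V h (gsq g) y - gsq (prox V h g) y) + 4 * h * prox V h (gsq g) y)) +
          m * √(gsq (prox V h g) y) := by
  have hh2 : 0 ≤ h / 2 := by linarith
  set ψ := fwd (h / 2) g with hψd
  have hψ : Bdd ψ := (markov_fwd (h / 2)).bdd hg
  obtain ⟨M, hM⟩ := hψ.2
  have hLp : ∀ y, MemLp ψ 2 (halfLaw V h y) := fun y => by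
    have := isProb_halfLaw hV hh.le y
    exact .of_bound hψ.1.aestronglyMeasurable M (Eventually.of_forall hM)
  refine ⟨fun y => ?_, fun {L} hg1 hL y => ?_⟩
  · have := isProb_halfLaw hV hh.le y
    obtain ⟨-, h1⟩ := hφ y ψ hψ.1 (hLp y)
    rw [integral_halfLaw_fwd hV hh.le y hg] at h1
    refine h1.trans (mul_le_mul_of_nonneg_left (Real.sqrt_le_sqrt ?_) hc)
    rw [← integral_halfLaw_fwd hV hh.le y hg.sq]
    exact integral_mono (hψ.sq.integrable _) (((markov_fwd _).bdd hg.sq).integrable _)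
      fun x => (markov_fwd _).sq_le hg x
  · have := isProb_halfLaw hV hh.le y
    have := isProb_rgo' hV hh.le y
    set a := fderiv ℝ (prox V h g) y with ha
    obtain ⟨c₀, hχ, hv⟩ := centred_var hV hh hg hg1 hL y
    obtain ⟨hi, h1⟩ := hφ y _ ((hψ.1.sub a.continuous.measurable).sub_const c₀) hχ
    have hlin : ∀ u, Integrable (fun ω => ⟪u, z ω y⟫) P := fun u =>
      (hφ y _ (by fun_prop) (memLp_half_inner hV hh.le y u)).1
    have hzi : Integrable (fun ω => z ω y) P := integrable_of_inner hlin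
    have hid : Integrable (fun x : Sp d => x) (rgo V h y) :=
      integrable_of_inner fun u => (memLp_inner hV hh.le y u).1.integrable (by norm_num)
    have hidh : Integrable (fun x : Sp d => x) (halfLaw V h y) :=
      integrable_of_inner fun u => (memLp_half_inner hV hh.le y u).integrable (by norm_num)
    have hψi : Integrable (fun ω => ψ (z ω y)) P := (hφ y ψ hψ.1 (hLp y)).1
    have hai : Integrable (fun ω => a (z ω y)) P := a.integrable_comp hzi
    have hah : Integrable (fun x => a x) (halfLaw V h y) := a.integrable_comp hidh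
    have eh : ∫ x, a x ∂halfLaw V h y = a (∫ x, x ∂rgo V h y) := by
      rw [(integral_halfLaw hV hh.le y a.continuous.measurable hah).1,
        ← a.integral_comp_comm hid]
      refine integral_congr_ae (Eventually.of_forall fun x => ?_)
      have hid' : Integrable (fun w : Sp d => w) (gd d) := IsGaussian.integrable_id
      simp only [fwd_eq, map_add, map_smul, smul_eq_mul]
      rw [integral_add (integrable_const _) ((a.integrable_comp hid').const_mul _),
        integral_const_mul, a.integral_comp_comm hid']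
      simp [integral_id_stdGaussian, gam]
    have e1 : ∫ ω, (ψ (z ω y) - a (z ω y) - c₀) ∂P =
        approx P h z g y - a (∫ ω, z ω y ∂P) - c₀ := by
      rw [integral_sub (f := fun ω => ψ (z ω y) - a (z ω y)) (hψi.sub hai) (integrable_const _),
        integral_sub hψi hai, a.integral_comp_comm hzi]
      simp [approx, hψd]
    have e2 : ∫ x, (ψ x - a x - c₀) ∂halfLaw V h y =
        prox V h g y - a (∫ x, x ∂rgo V h y) - c₀ := by
      rw [integral_sub (f := fun x => ψ x - a x) ((hψ.integrable _).sub hah) (integrable_const _),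
        integral_sub (hψ.integrable _) hah, eh, hψd, integral_halfLaw_fwd hV hh.le y hg]
      simp
    simp only [Pi.sub_apply] at h1
    rw [e1, e2] at h1
    have h2 : |a (∫ ω, z ω y ∂P) - a (∫ x, x ∂rgo V h y)| ≤ m * ‖a‖ := by
      rw [← map_sub, ← norm_eq_abs, mul_comm]
      exact (a.le_opNorm _).trans (mul_le_mul_of_nonneg_left (hz y) (norm_nonneg a))
    have h3 := mul_le_mul_of_nonneg_left (Real.sqrt_le_sqrt hv) hc
    have h4 : √(gsq (prox V h g) y) = ‖a‖ := Real.sqrt_sq (norm_nonneg _)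
    rw [h4]
    have h5 := abs_add_le (approx P h z g y - a (∫ ω, z ω y ∂P) - c₀ -
      (prox V h g y - a (∫ x, x ∂rgo V h y) - c₀)) (a (∫ ω, z ω y ∂P) - a (∫ x, x ∂rgo V h y))
    rw [show approx P h z g y - a (∫ ω, z ω y ∂P) - c₀ -
      (prox V h g y - a (∫ x, x ∂rgo V h y) - c₀) + (a (∫ ω, z ω y ∂P) - a (∫ x, x ∂rgo V h y)) =
      approx P h z g y - prox V h g y by ring] at h5
    linarith

/-- Weighted summation of a decreasing sequence with `(k+1) h e k ≤ F`. -/
lemma sum_estimate {e : ℕ → ℝ} {F h L : ℝ} {N n : ℕ} (hh : 0 < h) (hF : 0 ≤ F) (hN : N + 1 = n)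
    (he0 : ∀ k, k ≤ N → 0 ≤ e k) (hdec : ∀ k, k < N → e (k + 1) ≤ e k)
    (hb : ∀ k, k ≤ N → ((k : ℝ) + 1) * h * e k ≤ F) (hL : (harmonic n : ℝ) ≤ 2 * L) :
    ∑ k ∈ range N, √(2 * h * ((e k - e (k + 1)) + 4 * h * e k)) ≤
        (3 * L + 4 * √(n * h * L)) * √F ∧
      ∑ k ∈ range N, √(e (k + 1)) ≤ 2 * √((n : ℝ) / h) * √F := by
  have hH : ∀ M, M ≤ n → ∑ k ∈ range M, ((k : ℝ) + 1)⁻¹ ≤ 2 * L := by
    intro M hM
    refine le_trans ?_ hL
    simp only [harmonic, Rat.cast_sum, Rat.cast_inv, Rat.cast_natCast, Nat.cast_add, Nat.cast_one,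
      Rat.cast_add, Rat.cast_one]
    exact sum_le_sum_of_subset_of_nonneg (range_mono hM) fun k _ _ => by positivity
  have hL0 : 0 ≤ L := by linarith [hH 0 (Nat.zero_le n), (show ∑ k ∈ range 0, ((k : ℝ) + 1)⁻¹ = 0 by simp)]
  have hE : ∀ k, k ≤ N → e k ≤ F / h * ((k : ℝ) + 1)⁻¹ := fun k hk => by
    rw [← div_eq_mul_inv, le_div_iff₀ (by positivity), le_div_iff₀ hh]
    linarith [hb k hk, show ((k : ℝ) + 1) * h * e k = e k * ((k : ℝ) + 1) * h by ring]
  have hsum : ∑ k ∈ range N, e k ≤ F / h * (2 * L) := by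
    refine (sum_le_sum fun k hk => hE k (le_of_lt (mem_range.1 hk))).trans ?_
    rw [← mul_sum]
    exact mul_le_mul_of_nonneg_left (hH N (by omega)) (by positivity)
  have htel : ∀ M, M ≤ N → ∑ k ∈ range M, ((k : ℝ) + 1) * (e k - e (k + 1)) + M * e M =
      ∑ k ∈ range M, e k := by
    intro M
    induction M with
    | zero => simp
    | succ M ih =>
      intro hM
      rw [sum_range_succ, sum_range_succ, ← ih (by omega)]
      push_cast
      ring
  have hD : ∑ k ∈ range N, ((k : ℝ) + 1) * (e k - e (k + 1)) ≤ F / h * (2 * L) := by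
    linarith [htel N le_rfl, mul_nonneg (Nat.cast_nonneg (α := ℝ) N) (he0 N le_rfl)]
  have hsh : 0 < √h := Real.sqrt_pos.2 hh
  have hA : ∑ k ∈ range N, √(e k - e (k + 1)) ≤ 2 * L * √(F / h) := by
    have h1 := Real.sum_sqrt_mul_sqrt_le (range N) (f := fun k : ℕ => ((k : ℝ) + 1)⁻¹)
      (g := fun k => if k < N then ((k : ℝ) + 1) * (e k - e (k + 1)) else 0)
      (fun k => by positivity) (fun k => by
        split_ifs with hk
        · exact mul_nonneg (by positivity) (sub_nonneg.2 (hdec k hk))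
        · exact le_rfl)
    have e1 : ∀ k ∈ range N, √(((k : ℝ) + 1)⁻¹) * √(if k < N then ((k : ℝ) + 1) * (e k - e (k + 1)) else 0) =
        √(e k - e (k + 1)) := fun k hk => by
      rw [if_pos (mem_range.1 hk), ← Real.sqrt_mul (by positivity), inv_mul_cancel_left₀]
      positivity
    rw [sum_congr rfl e1, sum_congr rfl (g := fun k => ((k : ℝ) + 1) * (e k - e (k + 1)))
      (s₁ := range N) (f := fun k => if k < N then _ else _) fun k hk => if_pos (mem_range.1 hk)]
      at h1
    refine h1.trans ((mul_le_mul (Real.sqrt_le_sqrt (hH N (by omega))) (Real.sqrt_le_sqrt hD)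
      (Real.sqrt_nonneg _) (Real.sqrt_nonneg _)).trans_eq ?_)
    rw [mul_comm (F / h), Real.sqrt_mul (by positivity) (F / h), ← mul_assoc,
      Real.mul_self_sqrt (by positivity)]
  have hnN : (N : ℝ) ≤ n := by exact_mod_cast (by omega : N ≤ n)
  have hB : ∑ k ∈ range N, √(e k) ≤ √(n : ℝ) * √(F / h * (2 * L)) := by
    have h1 := Real.sum_sqrt_mul_sqrt_le (range N) (f := fun _ => (1 : ℝ))
      (g := fun k => max (e k) 0) (fun k => zero_le_one) (fun k => le_max_right _ _)
    have e1 : ∀ k ∈ range N, max (e k) 0 = e k := fun k hk =>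
      max_eq_left (he0 k (le_of_lt (mem_range.1 hk)))
    simp only [Real.sqrt_one, one_mul, sum_const, card_range, nsmul_eq_mul, mul_one] at h1
    rw [sum_congr rfl e1, sum_congr rfl fun k hk => congrArg Real.sqrt (e1 k hk)] at h1
    exact h1.trans (mul_le_mul (Real.sqrt_le_sqrt hnN) (Real.sqrt_le_sqrt hsum)
      (Real.sqrt_nonneg _) (Real.sqrt_nonneg _))
  constructor
  · have h1 : ∀ k ∈ range N, √(2 * h * ((e k - e (k + 1)) + 4 * h * e k)) ≤
        √2 * √h * √(e k - e (k + 1)) + √2 * √h * (2 * √h) * √(e k) := fun k hk => by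
      have hk' := mem_range.1 hk
      rw [Real.sqrt_mul (by positivity), Real.sqrt_mul zero_le_two, mul_assoc _ _ √(e k),
        ← mul_add]
      refine mul_le_mul_of_nonneg_left ?_ (by positivity)
      have h4 : √(4 * h * e k) = 2 * √h * √(e k) := by
        rw [Real.sqrt_mul (by positivity), Real.sqrt_mul (by norm_num),
          show (4 : ℝ) = 2 ^ 2 by norm_num, Real.sqrt_sq zero_le_two]
      rw [← h4]
      refine Real.sqrt_le_iff.2 ⟨by positivity, ?_⟩
      rw [add_sq, Real.sq_sqrt (sub_nonneg.2 (hdec k hk')),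
        Real.sq_sqrt (by have := he0 k hk'.le; positivity)]
      have : 0 ≤ 2 * √(e k - e (k + 1)) * √(4 * h * e k) := by positivity
      linarith
    refine (sum_le_sum h1).trans ?_
    rw [sum_add_distrib, ← mul_sum, ← mul_sum]
    refine (add_le_add (mul_le_mul_of_nonneg_left hA (by positivity))
      (mul_le_mul_of_nonneg_left hB (by positivity))).trans ?_
    have e5 : √h * √(F / h) = √F := by
      rw [← Real.sqrt_mul hh.le, mul_div_cancel₀ _ hh.ne']
    have e6 : √(n * h * L) = √(n : ℝ) * √h * √L := by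
      rw [Real.sqrt_mul (by positivity), Real.sqrt_mul (Nat.cast_nonneg n)]
    have e7 : √(F / h * (2 * L)) = √(F / h) * (√2 * √L) := by
      rw [Real.sqrt_mul (by positivity), Real.sqrt_mul zero_le_two]
    have hs2 : √2 * √2 = 2 := Real.mul_self_sqrt zero_le_two
    have hs3 : √2 ≤ 3 / 2 := by rw [Real.sqrt_le_iff]; norm_num
    rw [e6, e7, show √2 * √h * (2 * L * √(F / h)) = 2 * √2 * L * (√h * √(F / h)) by ring,
      show √2 * √h * (2 * √h) * (√(n : ℝ) * (√(F / h) * (√2 * √L))) =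
        2 * (√2 * √2) * (√(n : ℝ) * √h * √L) * (√h * √(F / h)) by ring, e5, hs2]
    nlinarith [mul_le_mul_of_nonneg_right hs3 (mul_nonneg hL0 (Real.sqrt_nonneg F))]
  · have h2 : ∀ k ∈ range N, √(e (k + 1)) ≤ √(F / h) * (2 * (√((k : ℝ) + 1) - √(k : ℝ))) := by
      intro k hk
      have hk' := mem_range.1 hk
      refine (Real.sqrt_le_sqrt ((hdec k hk').trans (hE k hk'.le))).trans ?_
      rw [Real.sqrt_mul (by positivity)]
      refine mul_le_mul_of_nonneg_left ?_ (Real.sqrt_nonneg _)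
      have a0 : 0 < √((k : ℝ) + 1) := by positivity
      rw [Real.sqrt_inv, inv_le_iff_one_le_mul₀ a0]
      nlinarith [Real.sq_sqrt (by positivity : (0 : ℝ) ≤ (k : ℝ) + 1),
        Real.sq_sqrt (Nat.cast_nonneg (α := ℝ) k), sq_nonneg (√((k : ℝ) + 1) - √(k : ℝ))]
    refine (sum_le_sum h2).trans ?_
    have h3 : ∑ k ∈ range N, (√((k : ℝ) + 1) - √(k : ℝ)) = √(N : ℝ) := by
      have := sum_range_sub (fun k : ℕ => √(k : ℝ)) N
      simpa using this
    rw [← mul_sum, ← mul_sum, h3, Real.sqrt_div hF, Real.sqrt_div (Nat.cast_nonneg n)]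
    have := mul_le_mul_of_nonneg_right (Real.sqrt_le_sqrt hnN) (Real.sqrt_nonneg F)
    calc √F / √h * (2 * √(N : ℝ)) = 2 * (√(N : ℝ) * √F) / √h := by ring
      _ ≤ 2 * (√(n : ℝ) * √F) / √h := by gcongr
      _ = _ := by ring

end Vale.Agent.P347.Quarter
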