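import Vale.Agent.P347.Quarter.Chain.Op

/-! # P347: gradient estimates for the oracle and the proximal step -/

open MeasureTheory ProbabilityTheory Real Filter Topology
open scoped RealInnerProductSpace

namespace Vale.Agent.P347.Quarter

variable {d : ℕ} {V : Sp d → ℝ} {G : Sp d → Sp d} {H : Sp d → Sp d →L[ℝ] Sp d} {h : ℝ}

/-- The oracle on observables. -/
noncomputable def Qop (V : Sp d → ℝ) (h : ℝ) (g : Sp d → ℝ) (y : Sp d) : ℝ :=
  ∫ x, g x ∂rgo V h y

lemma prox_eq (V : Sp d → ℝ) (h : ℝ) (g : Sp d → ℝ) : prox V h g = Qop V h (fwd h g) := rfl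

/-- The squared norm of the derivative. -/
noncomputable def gsq (f : Sp d → ℝ) (x : Sp d) : ℝ := ‖fderiv ℝ f x‖ ^ 2

lemma gsq_nonneg (f : Sp d → ℝ) (x : Sp d) : 0 ≤ gsq f x := sq_nonneg _

lemma bdd_gsq {f : Sp d → ℝ} (hf : ContDiff ℝ 1 f) {L : ℝ} (hL : ∀ x, ‖fderiv ℝ f x‖ ≤ L) :
    Bdd (gsq f) := by
  refine ⟨((hf.continuous_fderiv one_ne_zero).norm.pow 2).measurable, L ^ 2, fun x => ?_⟩
  rw [gsq, abs_of_nonneg (sq_nonneg _)]
  exact pow_le_pow_left₀ (norm_nonneg _) (hL x) 2

lemma isProb_rgo' (hV : IsPot V G H 1 2) (hh : 0 ≤ h) (y : Sp d) :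
    IsProbabilityMeasure (rgo V h y) := by
  have := isProb_gibbs (isPot_rgoW hV hh y) hh
  exact Measure.isProbabilityMeasure_map (by fun_prop)

/-- Covariance is bounded by the variances. -/
lemma abs_cov_le {α : Type*} [MeasurableSpace α] (μ : Measure α) [IsProbabilityMeasure μ]
    {f g : α → ℝ} (hf : MemLp f 2 μ) (hg : MemLp g 2 μ) :
    |(∫ x, f x * g x ∂μ) - (∫ x, f x ∂μ) * ∫ x, g x ∂μ| ≤
      √(∫ x, (f x - ∫ z, f z ∂μ) ^ 2 ∂μ) * √(∫ x, (g x - ∫ z, g z ∂μ) ^ 2 ∂μ) := by
  set a := ∫ x, f x ∂μ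
  set b := ∫ x, g x ∂μ
  have hu : MemLp (fun x => f x - a) 2 μ := hf.sub (memLp_const a)
  have hv : MemLp (fun x => g x - b) 2 μ := hg.sub (memLp_const b)
  have e : ∫ x, (f x - a) * (g x - b) ∂μ = (∫ x, f x * g x ∂μ) - a * b := by
    have i1 : Integrable (fun x => f x * g x) μ := hf.integrable_mul hg
    have i2 : Integrable (fun x => b * f x) μ := (hf.integrable (by norm_num)).const_mul b
    have i3 : Integrable (fun x => a * g x) μ := (hg.integrable (by norm_num)).const_mul a
    calc ∫ x, (f x - a) * (g x - b) ∂μ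
        = ∫ x, ((f x * g x - b * f x) - a * g x) + a * b ∂μ :=
          integral_congr_ae (Eventually.of_forall fun x => by ring)
      _ = _ := by
          have j1 : Integrable (fun x => f x * g x - b * f x) μ := i1.sub i2
          have j2 : Integrable (fun x => f x * g x - b * f x - a * g x) μ := j1.sub i3
          rw [integral_add j2 (integrable_const _),
            integral_sub j1 i3, integral_sub i1 i2, integral_const_mul,
            integral_const_mul, integral_const, probReal_univ, one_smul]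
          ring
  rw [← e]
  have key : ∀ t : ℝ, 0 ≤ (∫ x, (g x - b) ^ 2 ∂μ) * (t * t) +
      (2 * ∫ x, (f x - a) * (g x - b) ∂μ) * t + ∫ x, (f x - a) ^ 2 ∂μ := by
    intro t
    have h0 : 0 ≤ ∫ x, ((f x - a) + t * (g x - b)) ^ 2 ∂μ :=
      integral_nonneg fun x => sq_nonneg _
    have i4 : Integrable (fun x => (f x - a) * (g x - b)) μ := hu.integrable_mul hv
    have i5 := hu.integrable_sq
    have i6 := hv.integrable_sq
    have j1 : Integrable (fun x => (f x - a) ^ 2 + 2 * t * ((f x - a) * (g x - b))) μ :=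
      i5.add (i4.const_mul (2 * t))
    rw [integral_congr_ae (Eventually.of_forall fun x => show _ =
      ((f x - a) ^ 2 + 2 * t * ((f x - a) * (g x - b))) + t * t * (g x - b) ^ 2 by ring),
      integral_add j1 (i6.const_mul (t * t)),
      integral_add i5 (i4.const_mul (2 * t)), integral_const_mul, integral_const_mul] at h0
    linarith
  have hd := discrim_le_zero key
  rw [discrim] at hd
  rw [← Real.sqrt_mul (integral_nonneg fun x => sq_nonneg _)]
  exact Real.abs_le_sqrt (by nlinarith)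

/-- The Poincaré inequality for the oracle. -/
lemma rgo_poincare (hV : IsPot V G H 1 2) (hh : 0 ≤ h) (y : Sp d) {f : Sp d → ℝ}
    (hf : ContDiff ℝ 1 f) {L : ℝ} (hL : ∀ x, ‖fderiv ℝ f x‖ ≤ L) :
    MemLp f 2 (rgo V h y) ∧
      ∫ x, (f x - ∫ z, f z ∂rgo V h y) ^ 2 ∂rgo V h y ≤
        h / (1 + h) * ∫ x, gsq f x ∂rgo V h y := by
  have hφ : ∀ z : Sp d, HasFDerivAt (fun z => f (y + √h • z))
      ((fderiv ℝ f (y + √h • z)).comp (√h • ContinuousLinearMap.id ℝ (Sp d))) z := fun z =>
    (hf.differentiable one_ne_zero _).hasFDerivAt.comp z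
      (((hasFDerivAt_id z).const_smul √h).const_add y)
  have hbd : ∀ z, ‖fderiv ℝ (fun z => f (y + √h • z)) z‖ = √h * ‖fderiv ℝ f (y + √h • z)‖ := by
    intro z
    rw [(hφ z).fderiv, ContinuousLinearMap.comp_smul, ContinuousLinearMap.comp_id, norm_smul,
      norm_of_nonneg (Real.sqrt_nonneg h)]
  obtain ⟨h1, h2⟩ := gibbs_poincare (isPot_rgoW hV hh y) hh
    (f := fun z => f (y + √h • z)) (by fun_prop) (A := √h * L) (B := 0) (fun z => by
      rw [hbd, zero_mul, add_zero]
      exact mul_le_mul_of_nonneg_left (hL _) (Real.sqrt_nonneg h))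
  have hm : Continuous f := hf.continuous
  have hc : Continuous (gsq f) := (hf.continuous_fderiv one_ne_zero).norm.pow 2
  constructor
  · exact (memLp_map_measure_iff hm.aestronglyMeasurable (by fun_prop)).2 h1
  · rw [rgo, integral_map (by fun_prop) (by fun_prop), integral_map (by fun_prop) (by fun_prop),
      integral_map (by fun_prop) (by fun_prop)]
    refine h2.trans_eq ?_
    simp only [gsq, hbd, mul_pow, Real.sq_sqrt hh, integral_const_mul]
    ring

lemma memLp_inner (hV : IsPot V G H 1 2) (hh : 0 ≤ h) (y u : Sp d) :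
    MemLp (fun x => ⟪u, x⟫) 2 (rgo V h y) ∧
      ∫ x, (⟪u, x⟫ - ∫ z, ⟪u, z⟫ ∂rgo V h y) ^ 2 ∂rgo V h y ≤ h / (1 + h) * ‖u‖ ^ 2 := by
  have := isProb_rgo' hV hh y
  obtain ⟨h1, h2⟩ := rgo_poincare hV hh y (f := fun x => ⟪u, x⟫) (innerSL ℝ u).contDiff
    (L := ‖u‖) fun x => by
      rw [show (fun x => ⟪u, x⟫) = innerSL ℝ u from rfl, ContinuousLinearMap.fderiv,
        innerSL_apply_norm]
  refine ⟨h1, h2.trans_eq ?_⟩
  simp only [gsq, show (fun x => ⟪u, x⟫) = innerSL ℝ u from rfl, ContinuousLinearMap.fderiv,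
    innerSL_apply_norm, integral_const, probReal_univ, one_smul]

lemma integral_comp_rgo (y : Sp d) {g : Sp d → ℝ} (hg : Measurable g) :
    ∫ x, g x ∂rgo V h y = ∫ z, g (y + √h • z) ∂gibbs (fun z => V (y + √h • z)) := by
  rw [rgo, integral_map (by fun_prop) hg.aestronglyMeasurable]

/-- The derivative of the numerator. -/
lemma hasFDerivAt_num (hV : IsPot V G H 1 2) (hh : 0 < h) {g : Sp d → ℝ} (hg : Bdd g)
    (y : Sp d) :
    HasFDerivAt (fun y => ∫ x, g x * wgt V h y x)
      (∫ x, (g x * wgt V h y x) • innerSL ℝ (h⁻¹ • (x - y))) y ∧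
    ContinuousAt (fun y => ∫ x, (g x * wgt V h y x) • innerSL ℝ (h⁻¹ • (x - y))) y ∧
    Integrable (fun x => (g x * wgt V h y x) • innerSL ℝ (h⁻¹ • (x - y))) := by
  obtain ⟨M, hM⟩ := hg.2
  obtain ⟨i0, i1, -⟩ := integrable_exp_neg_pot hV
  set R := ‖y‖ + 1
  have hbound : ∀ x, ∀ z ∈ Metric.ball y 1,
      ‖(g x * wgt V h z x) • innerSL ℝ (h⁻¹ • (x - z))‖ ≤
        M * h⁻¹ * (‖x‖ * exp (-V x) + R * exp (-V x)) := by
    intro x z hz
    rw [Metric.mem_ball, dist_eq_norm] at hz
    rw [norm_smul, innerSL_apply_norm, norm_smul, norm_inv, norm_of_nonneg hh.le, norm_mul,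
      norm_eq_abs, norm_of_nonneg (wgt_pos h z x).le]
    have h1 : ‖x - z‖ ≤ ‖x‖ + R := by
      have := norm_sub_le x z
      have := norm_le_norm_add_norm_sub' z y
      linarith
    calc |g x| * wgt V h z x * (h⁻¹ * ‖x - z‖)
        ≤ M * exp (-V x) * (h⁻¹ * (‖x‖ + R)) := by
          refine mul_le_mul (mul_le_mul (hM x) (wgt_le hh z x) (wgt_pos h z x).le
            ((abs_nonneg _).trans (hM x))) (by gcongr) (by positivity) ?_
          exact mul_nonneg ((abs_nonneg _).trans (hM x)) (exp_pos _).le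
      _ = _ := by ring
  have hi := (i1.add (i0.const_mul R)).const_mul (M * h⁻¹)
  have hcz : ∀ z : Sp d, AEStronglyMeasurable
      fun x => (g x * wgt V h z x) • innerSL ℝ (h⁻¹ • (x - z)) := fun z =>
    ((hg.1.mul (continuous_wgt hV h z).measurable).aestronglyMeasurable).smul
      (Continuous.aestronglyMeasurable (by fun_prop))
  have hy : Metric.ball y 1 ∈ 𝓝 y := Metric.ball_mem_nhds y one_pos
  refine ⟨?_, ?_, hi.mono' (hcz y) (Eventually.of_forall fun x =>
    hbound x y (Metric.mem_ball_self one_pos))⟩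
  · refine hasFDerivAt_integral_of_dominated_of_fderiv_le
      (F := fun z x => g x * wgt V h z x) hy
      (Eventually.of_forall fun z =>
        (hg.1.mul (continuous_wgt hV h z).measurable).aestronglyMeasurable)
      (integrable_mul_wgt hV hh y hg.1.aestronglyMeasurable (A := M) (B := 0) (by simpa using hM))
      (hcz y) (Eventually.of_forall fun x => hbound x) hi (Eventually.of_forall fun x z _ => ?_)
    have h1 := (((hasFDerivAt_id (𝕜 := ℝ) z).const_sub x).norm_sq.mul_const ((2 * h)⁻¹)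
      |>.const_sub (-V x)).exp.const_mul (g x)
    refine (h1.congr_of_eventuallyEq (Eventually.of_forall fun w => ?_)).congr_fderiv ?_
    · simp [wgt, div_eq_mul_inv]
    · ext v
      simp [wgt, div_eq_mul_inv]
      field_simp
      ring
  · refine continuousAt_of_dominated (Eventually.of_forall hcz)
      (eventually_of_mem hy fun z hz => Eventually.of_forall fun x => hbound x z hz) hi
      (Eventually.of_forall fun x => ?_)
    have hw : Continuous fun z => wgt V h z x := by unfold wgt; fun_prop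
    fun_prop

/-- The derivative of the oracle is a covariance. -/
theorem qop_deriv (hV : IsPot V G H 1 2) (hh : 0 < h) {g : Sp d → ℝ} (hg : Bdd g) :
    ContDiff ℝ 1 (Qop V h g) ∧ ∀ y u, fderiv ℝ (Qop V h g) y u =
      (Qop V h (fun x => g x * ⟪u, x⟫) y - Qop V h g y * Qop V h (fun x => ⟪u, x⟫) y) / h := by
  set N := fun y => ∫ x, g x * wgt V h y x with hN
  set Z := fun y => ∫ x, wgt V h y x with hZ
  set N' := fun y => ∫ x, (g x * wgt V h y x) • innerSL ℝ (h⁻¹ • (x - y))
  set Z' := fun y => ∫ x, ((1 : ℝ) * wgt V h y x) • innerSL ℝ (h⁻¹ • (x - y))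
  have hn := hasFDerivAt_num hV hh hg
  have hz := hasFDerivAt_num hV hh (bdd_const (d := d) 1)
  have hZ1 : (fun y => ∫ x, (1 : ℝ) * wgt V h y x) = Z := by simp [hZ]
  have hz0 : ∀ y, Z y ≠ 0 := fun y => (norm_wgt_integral_pos hV hh y).ne'
  have hQ : Qop V h g = fun y => N y * (Z y)⁻¹ := funext fun y => by
    rw [Qop, integral_rgo hh y hg.1, div_eq_mul_inv]
  have hd : ∀ y, HasFDerivAt (Qop V h g)
      ((Z y)⁻¹ • N' y + (-(N y / Z y ^ 2)) • Z' y) y := by
    intro y
    rw [hQ]
    have h1 : HasFDerivAt Z (Z' y) y := hZ1 ▸ (hz y).1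
    refine ((hn y).1.mul ((hasFDerivAt_inv (hz0 y)).comp y h1)).congr_fderiv ?_
    ext v
    simp [hN, N', Z']
    ring
  refine ⟨contDiff_one_iff_fderiv.2 ⟨fun y => (hd y).differentiableAt, ?_⟩, fun y u => ?_⟩
  · rw [funext fun y => (hd y).fderiv, continuous_iff_continuousAt]
    intro y
    have hZc : ContinuousAt Z y := by rw [← hZ1]; exact (hz y).1.continuousAt
    have hNc : ContinuousAt N y := (hn y).1.continuousAt
    exact ((hZc.inv₀ (hz0 y)).smul (hn y).2.1).add
      (((hNc.div (hZc.pow 2) (pow_ne_zero _ (hz0 y))).neg).smul (hz y).2.1)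
  · rw [(hd y).fderiv]
    obtain ⟨M, hM⟩ := hg.2
    have hi : ∀ (φ : Sp d → ℝ) (K : ℝ), Measurable φ → (∀ x, |φ x| ≤ K) →
        (∫ x, (φ x * wgt V h y x) • innerSL ℝ (h⁻¹ • (x - y))) u =
          h⁻¹ * ((∫ x, φ x * ⟪u, x⟫ * wgt V h y x) - ⟪u, y⟫ * ∫ x, φ x * wgt V h y x) := by
      intro φ K hφ hK
      have i2 : Integrable fun x => φ x * wgt V h y x :=
        integrable_mul_wgt hV hh y hφ.aestronglyMeasurable (A := K) (B := 0) (by simpa using hK)
      have i1 : Integrable fun x => φ x * ⟪u, x⟫ * wgt V h y x := by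
        refine integrable_mul_wgt hV hh y (by fun_prop) (A := K * ‖u‖) (B := K * ‖u‖) fun x => ?_
        have hK0 := (abs_nonneg _).trans (hK x)
        rw [abs_mul]
        calc |φ x| * |⟪u, x⟫| ≤ K * (‖u‖ * ‖x‖) :=
              mul_le_mul (hK x) (abs_real_inner_le_norm u x) (abs_nonneg _) hK0
          _ ≤ K * (‖u‖ * (1 + ‖x‖ ^ 2)) := by
              gcongr; nlinarith [sq_nonneg (‖x‖ - 1), norm_nonneg x]
          _ = _ := by ring
      rw [ContinuousLinearMap.integral_apply (hasFDerivAt_num hV hh ⟨hφ, K, hK⟩ y).2.2,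
        ← integral_const_mul, ← integral_sub i1 (i2.const_mul _), ← integral_const_mul]
      refine integral_congr_ae (Eventually.of_forall fun x => ?_)
      simp [real_inner_comm u]
      ring
    have e1 : Measurable fun x => g x * ⟪u, x⟫ := hg.1.mul (by fun_prop)
    have eN := hi g M hg.1 hM
    have eZ := hi (fun _ => 1) 1 measurable_const (by simp)
    simp only [one_mul] at eZ
    simp only [add_apply, smul_apply, smul_eq_mul, Qop, integral_rgo hh y hg.1,
      integral_rgo hh y e1, integral_rgo hh y (by fun_prop : Measurable fun x : Sp d => ⟪u, x⟫)]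
    simp only [N', Z', one_mul] at *
    rw [eN, eZ]
    simp only [hN, hZ]
    field_simp
    ring

lemma markov_qop (hV : IsPot V G H 1 2) (hh : 0 < h) : Markov (Qop (d := d) V h) :=
  Markov.of_measures (μ := rgo V h) (isProb_rgo' hV hh.le) (fun _ _ => rfl)
    fun hg => (qop_deriv hV hh hg).1.continuous.measurable

lemma markov_prox (hV : IsPot V G H 1 2) (hh : 0 < h) : Markov (prox (d := d) V h) :=
  (markov_qop hV hh).comp (markov_fwd h)

/-- The variance controls the gradient. -/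
lemma gsq_qop_le (hV : IsPot V G H 1 2) (hh : 0 < h) {g : Sp d → ℝ} (hg : Bdd g) (y : Sp d) :
    h * (1 + h) * gsq (Qop V h g) y ≤ ∫ x, (g x - Qop V h g y) ^ 2 ∂rgo V h y := by
  have := isProb_rgo' hV hh.le y
  set S := ∫ x, (g x - Qop V h g y) ^ 2 ∂rgo V h y with hS
  have hS0 : 0 ≤ S := integral_nonneg fun x => sq_nonneg _
  have hh1 : 0 < h * (1 + h) := by positivity
  have key : ‖fderiv ℝ (Qop V h g) y‖ ≤ √(S / (h * (1 + h))) := by
    refine ContinuousLinearMap.opNorm_le_bound _ (Real.sqrt_nonneg _) fun u => ?_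
    rw [(qop_deriv hV hh hg).2, norm_div, norm_of_nonneg hh.le, div_le_iff₀ hh, norm_eq_abs]
    obtain ⟨M, hM⟩ := hg.2
    refine (abs_cov_le (rgo V h y) (.of_bound hg.1.aestronglyMeasurable M
      (Eventually.of_forall hM)) (memLp_inner hV hh.le y u).1).trans ?_
    refine (mul_le_mul_of_nonneg_left (Real.sqrt_le_sqrt (memLp_inner hV hh.le y u).2)
      (Real.sqrt_nonneg _)).trans_eq ?_
    rw [show (∫ x, (g x - ∫ z, g z ∂rgo V h y) ^ 2 ∂rgo V h y) = S from rfl,
      Real.sqrt_mul (by positivity), Real.sqrt_sq (norm_nonneg u), mul_right_comm _ ‖u‖ h,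
      ← mul_assoc, ← Real.sqrt_mul hS0]
    congr 1
    rw [show S * (h / (1 + h)) = S / (h * (1 + h)) * h ^ 2 by field_simp,
      Real.sqrt_mul (by positivity), Real.sqrt_sq hh.le]
  calc h * (1 + h) * gsq (Qop V h g) y ≤ h * (1 + h) * (√(S / (h * (1 + h)))) ^ 2 :=
        mul_le_mul_of_nonneg_left (pow_le_pow_left₀ (norm_nonneg _) key 2) hh1.le
    _ = S := by rw [Real.sq_sqrt (by positivity), mul_div_cancel₀ _ hh1.ne']

end Vale.Agent.P347.Quarter
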