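import Vale.Agent.P347.Quarter.Chain.Grad

/-! # P347: one step of the proximal chain: gradient contraction and the centred variance -/

open MeasureTheory ProbabilityTheory Real Filter Topology
open scoped RealInnerProductSpace

namespace Vale.Agent.P347.Quarter

variable {d : ℕ} {V : Sp d → ℝ} {G : Sp d → Sp d} {H : Sp d → Sp d →L[ℝ] Sp d} {h : ℝ}

lemma isPot_zero : IsPot (fun _ : Sp d => (0 : ℝ)) (fun _ => 0) (fun _ => 0) 0 0 := by
  refine ⟨fun x => ?_, fun x => hasFDerivAt_const 0 x, continuous_const, by simp, by simp,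
    by simp⟩
  simpa using hasFDerivAt_const (0 : ℝ) x

lemma gibbs_zero : gibbs (fun _ : Sp d => (0 : ℝ)) = gd d := by simp [gibbs]

lemma isProb_halfLaw (hV : IsPot V G H 1 2) (hh : 0 ≤ h) (y : Sp d) :
    IsProbabilityMeasure (halfLaw V h y) := by
  have := isProb_rgo' hV hh y
  exact Measure.isProbabilityMeasure_map (by fun_prop)

/-- Integrals against the half law. -/
lemma integral_halfLaw (hV : IsPot V G H 1 2) (hh : 0 ≤ h) (y : Sp d) {φ : Sp d → ℝ}
    (hφ : Measurable φ) (hi : Integrable φ (halfLaw V h y)) :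
    ∫ x, φ x ∂halfLaw V h y = ∫ x, fwd (h / 2) φ x ∂rgo V h y ∧
      Integrable (fwd (h / 2) φ) (rgo V h y) := by
  have := isProb_rgo' hV hh y
  rw [halfLaw] at hi ⊢
  have h1 : Integrable (fun p : Sp d × Sp d => φ (p.1 + √(h / 2) • p.2))
      ((rgo V h y).prod (gd d)) :=
    (integrable_map_measure hφ.aestronglyMeasurable (by fun_prop)).1 hi
  rw [integral_map (by fun_prop) hφ.aestronglyMeasurable, integral_prod _ h1,
    funext (fwd_eq (h / 2) φ)]
  exact ⟨rfl, h1.integral_prod_left⟩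

/-- The half law of a smoothed observable is the proximal step. -/
lemma integral_halfLaw_fwd (hV : IsPot V G H 1 2) (hh : 0 ≤ h) (y : Sp d) {g : Sp d → ℝ}
    (hg : Bdd g) : ∫ x, fwd (h / 2) g x ∂halfLaw V h y = prox V h g y := by
  have := isProb_halfLaw hV hh y
  have hb := (markov_fwd (h / 2)).bdd hg
  rw [(integral_halfLaw hV hh y hb.1 (hb.integrable _)).1, prox]
  refine integral_congr_ae (Eventually.of_forall fun x => ?_)
  simp only [fwd_fwd (by linarith : 0 ≤ h / 2) (by linarith : 0 ≤ h / 2) hg x, add_halves]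

/-- The squared gradient of a smoothed function. -/
lemma gsq_fwd_le {g : Sp d → ℝ} (hg : ContDiff ℝ 1 g) (hb : Bdd g) {L : ℝ}
    (hL : ∀ x, ‖fderiv ℝ g x‖ ≤ L) (s : ℝ) (a : Sp d →L[ℝ] ℝ) (x : Sp d) :
    ‖fderiv ℝ (fwd s g) x - a‖ ^ 2 ≤ fwd s (fun z => ‖fderiv ℝ g z - a‖ ^ 2) x := by
  have hb2 : Bdd fun z => ‖fderiv ℝ g z - a‖ :=
    ⟨(((hg.continuous_fderiv one_ne_zero).sub continuous_const).norm).measurable, L + ‖a‖,
      fun z => by
        rw [abs_of_nonneg (norm_nonneg _)]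
        exact (norm_sub_le _ _).trans (by linarith [hL z])⟩
  rw [(hasFDerivAt_fwd s hg hb hL x).fderiv]
  have hi : Integrable (fun w => fderiv ℝ g (x + √s • w)) (gd d) :=
    .of_bound ((hg.continuous_fderiv one_ne_zero).comp (f := fun w => x + √s • w)
      (by fun_prop)).aestronglyMeasurable L (Eventually.of_forall fun w => hL _)
  have e : (∫ w, fderiv ℝ g (x + √s • w) ∂gd d) - a =
      ∫ w, (fderiv ℝ g (x + √s • w) - a) ∂gd d := by
    rw [integral_sub hi (integrable_const a)]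
    simp
  rw [e]
  refine (pow_le_pow_left₀ (norm_nonneg _) (norm_integral_le_integral_norm _) 2).trans ?_
  rw [show (∫ w, ‖fderiv ℝ g (x + √s • w) - a‖ ∂gd d) =
    fwd s (fun z => ‖fderiv ℝ g z - a‖) x from (fwd_eq s (fun z => ‖fderiv ℝ g z - a‖) x).symm]
  exact (markov_fwd s).sq_le hb2 x

lemma gsq_fwd_le' {g : Sp d → ℝ} (hg : ContDiff ℝ 1 g) (hb : Bdd g) {L : ℝ}
    (hL : ∀ x, ‖fderiv ℝ g x‖ ≤ L) (s : ℝ) (x : Sp d) : gsq (fwd s g) x ≤ fwd s (gsq g) x := by
  have h1 := gsq_fwd_le hg hb hL s 0 x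
  simp only [sub_zero] at h1
  exact h1

lemma qop_var (hV : IsPot V G H 1 2) (hh : 0 < h) {g : Sp d → ℝ} (hg : Bdd g) (y : Sp d) :
    ∫ x, (g x - Qop V h g y) ^ 2 ∂rgo V h y =
      Qop V h (fun x => g x ^ 2) y - Qop V h g y ^ 2 := by
  have := isProb_rgo' hV hh.le y
  set q := Qop V h g y with hq
  have hM := markov_qop hV hh
  have e : (fun x => (g x - q) ^ 2) = fun x => (g x ^ 2 - 2 * q * g x) + q ^ 2 := by
    funext x; ring
  change Qop V h (fun x => (g x - q) ^ 2) y = _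
  rw [e, hM.add (hg.sq.sub (hg.const_mul _)) (bdd_const _), hM.sub hg.sq (hg.const_mul _),
    hM.smul hg, hM.const, ← hq]
  ring

/-- One proximal step gains regularity. -/
lemma gsq_prox_le (hV : IsPot V G H 1 2) (hh : 0 < h) {g : Sp d → ℝ} (hg : Bdd g) (y : Sp d) :
    h * gsq (prox V h g) y ≤ prox V h (fun x => g x ^ 2) y - prox V h g y ^ 2 := by
  have hf := (markov_fwd h).bdd hg
  have h1 := gsq_qop_le hV hh hf y
  rw [qop_var hV hh hf y] at h1
  have h2 := (markov_qop hV hh).mono hf.sq ((markov_fwd h).bdd hg.sq)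
    (fun x => (markov_fwd h).sq_le hg x) y
  have h3 := gsq_nonneg (prox V h g) y
  simp only [prox_eq] at h3 ⊢
  nlinarith [mul_nonneg (mul_nonneg hh.le hh.le) h3]

/-- One proximal step contracts gradients. -/
lemma gsq_prox_contract (hV : IsPot V G H 1 2) (hh : 0 < h) {g : Sp d → ℝ} (hg : Bdd g)
    (hg1 : ContDiff ℝ 1 g) {L : ℝ} (hL : ∀ x, ‖fderiv ℝ g x‖ ≤ L) (y : Sp d) :
    (1 + h) ^ 2 * gsq (prox V h g) y ≤ prox V h (gsq g) y := by
  have hf := (markov_fwd h).bdd hg
  obtain ⟨hc, hcL, -⟩ := fderiv_fwd h hg1 hg hL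
  have h1 := (gsq_qop_le hV hh hf y).trans (rgo_poincare hV hh.le y hc hcL).2
  have h2 : Qop V h (gsq (fwd h g)) y ≤ prox V h (gsq g) y :=
    (markov_qop hV hh).mono (bdd_gsq hc hcL) ((markov_fwd h).bdd (bdd_gsq hg1 hL))
      (gsq_fwd_le' hg1 hg hL h) y
  have h0 : 0 < 1 + h := by linarith
  rw [div_mul_eq_mul_div, le_div_iff₀ h0] at h1
  refine le_trans ?_ h2
  rw [prox_eq]
  refine le_of_mul_le_mul_left ?_ hh
  exact le_trans (le_of_eq (by ring)) h1

/-- The average gradient of a smoothed observable is the gradient after the step up to `O(h)`. -/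
lemma qop_grad_identity (hV : IsPot V G H 1 2) (hh : 0 < h) {f : Sp d → ℝ} (hf : Bdd f)
    (hf1 : ContDiff ℝ 1 f) {L : ℝ} (hL : ∀ x, ‖fderiv ℝ f x‖ ≤ L) (y v : Sp d) :
    |(∫ x, fderiv ℝ f x v ∂rgo V h y) - fderiv ℝ (Qop V h f) y v| ≤
      2 * h * √(∫ x, gsq f x ∂rgo V h y) * ‖v‖ := by
  have := isProb_rgo' hV hh.le y
  have hs : √h ≠ 0 := Real.sqrt_ne_zero'.2 hh
  have hs2 := Real.sq_sqrt hh.le
  obtain ⟨M, hM⟩ := hf.2
  have hW := isPot_rgoW hV hh.le y
  have hcd : ∀ z : Sp d, HasFDerivAt (fun z => f (y + √h • z))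
      ((fderiv ℝ f (y + √h • z)).comp (√h • ContinuousLinearMap.id ℝ (Sp d))) z := fun z =>
    (hf1.differentiable one_ne_zero _).hasFDerivAt.comp z
      (((hasFDerivAt_id z).const_smul √h).const_add y)
  have hL0 : 0 ≤ L := (norm_nonneg _).trans (hL 0)
  have hM0 : 0 ≤ M := (abs_nonneg _).trans (hM 0)
  have ibp := gibbs_ibp hW hh.le (F := fun z => f (y + √h • z)) (by fun_prop)
    (C := M + √h * L) (K := 0) (fun z => by
      simp only [zero_mul, exp_zero, mul_one]; linarith [hM (y + √h • z), mul_nonneg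
        (Real.sqrt_nonneg h) hL0]) (fun z => by
      rw [(hcd z).fderiv, ContinuousLinearMap.comp_smul, ContinuousLinearMap.comp_id, norm_smul,
        norm_of_nonneg (Real.sqrt_nonneg h), zero_mul, exp_zero, mul_one]
      nlinarith [mul_le_mul_of_nonneg_left (hL (y + √h • z)) (Real.sqrt_nonneg h)]) v
  have ibp1 := gibbs_ibp hW hh.le (F := fun _ => (1 : ℝ)) contDiff_const
    (C := 1) (K := 0) (by simp) (by simp) v
  set ρ := rgo V h y
  set φ : Sp d → ℝ := fun x => ⟪G x, v⟫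
  set ψ : Sp d → ℝ := fun x => ⟪v, x⟫
  have hGc := (hV.mono zero_le_one).continuous_grad
  have e : ∀ z : Sp d, ⟪z + √h • G (y + √h • z), v⟫ =
      (√h)⁻¹ * (ψ (y + √h • z) - ψ y) + √h * φ (y + √h • z) := by
    intro z
    simp only [ψ, φ, inner_add_left, inner_add_right, real_inner_smul_left, real_inner_smul_right,
      add_sub_cancel_left, ← mul_assoc, inv_mul_cancel₀ hs, one_mul, real_inner_comm v z]
  have hψm : MemLp ψ 2 ρ := (memLp_inner hV hh.le y v).1
  have hφd : ∀ x, HasFDerivAt φ ((innerSL ℝ v).comp (H x)) x := fun x => by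
    refine ((innerSL ℝ v).hasFDerivAt.comp x (hV.hasHess x)).congr_of_eventuallyEq
      (Eventually.of_forall fun z => ?_)
    simp [φ, real_inner_comm v]
  have hφc : ContDiff ℝ 1 φ := ((hV.mono zero_le_one).contDiff_grad).inner ℝ contDiff_const
  have hφL : ∀ x, ‖fderiv ℝ φ x‖ ≤ 2 * ‖v‖ := fun x => by
    rw [(hφd x).fderiv]
    refine (ContinuousLinearMap.opNorm_comp_le _ _).trans ?_
    rw [innerSL_apply_norm, mul_comm]
    exact mul_le_mul_of_nonneg_right ((hV.mono zero_le_one).norm_hess zero_le_two x) (norm_nonneg v)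
  obtain ⟨hφm, hφv⟩ := rgo_poincare hV hh.le y hφc hφL
  obtain ⟨hfm, hfv⟩ := rgo_poincare hV hh.le y hf1 hL
  have hfd : Measurable fun x => fderiv ℝ f x v :=
    ((hf1.continuous_fderiv one_ne_zero).clm_apply continuous_const).measurable
  have lhs : ∫ z, fderiv ℝ (fun z => f (y + √h • z)) z v ∂gibbs (fun z => V (y + √h • z)) =
      √h * ∫ x, fderiv ℝ f x v ∂ρ := by
    rw [integral_comp_rgo y hfd, ← integral_const_mul]
    exact integral_congr_ae (Eventually.of_forall fun z => by simp [(hcd z).fderiv])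
  have rhs : ∀ g : Sp d → ℝ, MemLp g 2 ρ → Measurable g →
      ∫ z, g (y + √h • z) * ⟪z + √h • G (y + √h • z), v⟫ ∂gibbs (fun z => V (y + √h • z)) =
        (√h)⁻¹ * ((∫ x, g x * ψ x ∂ρ) - ψ y * ∫ x, g x ∂ρ) + √h * ∫ x, g x * φ x ∂ρ := by
    intro g hg hgm
    have i1 : Integrable (fun x => g x * ψ x) ρ := hg.integrable_mul hψm
    have i2 : Integrable g ρ := hg.integrable (by norm_num)
    have i3 : Integrable (fun x => g x * φ x) ρ := hg.integrable_mul hφm
    have j1 : Integrable (fun x => g x * ψ x - ψ y * g x) ρ := i1.sub (i2.const_mul _)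
    have hm : Measurable fun x => (√h)⁻¹ * (g x * ψ x - ψ y * g x) + √h * (g x * φ x) :=
      ((((hgm.mul (by fun_prop)).sub (hgm.const_mul _)).const_mul _)).add
        ((hgm.mul (by fun_prop : Measurable φ)).const_mul _)
    calc _ = ∫ z, (fun x => (√h)⁻¹ * (g x * ψ x - ψ y * g x) + √h * (g x * φ x)) (y + √h • z)
          ∂gibbs (fun z => V (y + √h • z)) :=
          integral_congr_ae (Eventually.of_forall fun z => by simp only [e]; ring)
      _ = _ := by
          rw [← integral_comp_rgo y hm, integral_add (j1.const_mul _) (i3.const_mul _),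
            integral_const_mul, integral_const_mul, integral_sub i1 (i2.const_mul _),
            integral_const_mul]
  rw [lhs, rhs f hfm hf.1] at ibp
  have r1 := rhs (fun _ => 1) (memLp_const 1) measurable_const
  simp only [one_mul, integral_const, probReal_univ, one_smul, mul_one] at r1
  simp only [one_mul] at ibp1
  rw [r1] at ibp1
  simp only [fderiv_fun_const, Pi.zero_apply, zero_apply, integral_zero] at ibp1
  rw [(qop_deriv hV hh hf).2]
  simp only [Qop]
  have key : (∫ x, fderiv ℝ f x v ∂ρ) - ((∫ x, f x * ψ x ∂ρ) - (∫ x, f x ∂ρ) * ∫ x, ψ x ∂ρ) / h =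
      (∫ x, f x * φ x ∂ρ) - (∫ x, f x ∂ρ) * ∫ x, φ x ∂ρ := by
    field_simp at ibp ibp1 ⊢
    rw [hs2] at ibp ibp1
    linear_combination ibp - (∫ x, f x ∂ρ) * ibp1
  change |_ - ((∫ x, f x * ψ x ∂ρ) - (∫ x, f x ∂ρ) * ∫ x, ψ x ∂ρ) / h| ≤ _
  rw [key]
  refine (abs_cov_le ρ hfm hφm).trans ?_
  have q0 : 0 ≤ ∫ x, gsq f x ∂ρ := integral_nonneg (gsq_nonneg f)
  have hle : h / (1 + h) ≤ h := div_le_self hh.le (by linarith)
  have b1 := hfv.trans (mul_le_mul_of_nonneg_right hle q0)
  have b2 : ∫ x, gsq φ x ∂ρ ≤ (2 * ‖v‖) ^ 2 := by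
    refine (integral_mono ((bdd_gsq hφc hφL).integrable ρ) (integrable_const _)
      fun x => pow_le_pow_left₀ (norm_nonneg _) (hφL x) 2).trans_eq ?_
    simp
  have b3 := hφv.trans (mul_le_mul hle b2 (integral_nonneg (gsq_nonneg φ)) hh.le)
  refine (mul_le_mul (Real.sqrt_le_sqrt b1) (Real.sqrt_le_sqrt b3) (Real.sqrt_nonneg _)
    (Real.sqrt_nonneg _)).trans_eq ?_
  rw [Real.sqrt_mul hh.le, Real.sqrt_mul hh.le, Real.sqrt_sq (by positivity)]
  linear_combination 2 * ‖v‖ * √(∫ x, gsq f x ∂ρ) * Real.mul_self_sqrt hh.le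

/-- The variance of an observable after removing the linear part of the next gradient. -/
theorem centred_var (hV : IsPot V G H 1 2) (hh : 0 < h) {g : Sp d → ℝ} (hg : Bdd g)
    (hg1 : ContDiff ℝ 1 g) {L : ℝ} (hL : ∀ x, ‖fderiv ℝ g x‖ ≤ L) (y : Sp d) :
    ∃ c₀ : ℝ, MemLp (fun x => fwd (h / 2) g x - fderiv ℝ (prox V h g) y x - c₀) 2
        (halfLaw V h y) ∧
      ∫ x, (fwd (h / 2) g x - fderiv ℝ (prox V h g) y x - c₀) ^ 2 ∂halfLaw V h y ≤
        2 * h * ((prox V h (gsq g) y - gsq (prox V h g) y) + 4 * h * prox V h (gsq g) y) := by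
  set a := fderiv ℝ (prox V h g) y with ha
  set ψ := fwd (h / 2) g
  set P := prox V h (gsq g) y
  have := isProb_rgo' hV hh.le y
  have := isProb_halfLaw hV hh.le y
  have hh2 : 0 ≤ h / 2 := by linarith
  obtain ⟨hψ1, hψL, hψu⟩ := fderiv_fwd (h / 2) hg1 hg hL
  have hψ : Bdd ψ := (markov_fwd (h / 2)).bdd hg
  set χ : Sp d → ℝ := fun x => ψ x - a x with hχ
  have hχ1 : ContDiff ℝ 1 χ := hψ1.sub a.contDiff
  have hχd : ∀ x, fderiv ℝ χ x = fderiv ℝ ψ x - a := fun x => by
    rw [hχ, fderiv_fun_sub (hψ1.differentiable one_ne_zero x) a.differentiableAt,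
      ContinuousLinearMap.fderiv]
  have hχL : ∀ x, ‖fderiv ℝ χ x‖ ≤ L + ‖a‖ := fun x => by
    rw [hχd]; exact (norm_sub_le _ _).trans (by linarith [hψL x])
  set S : Sp d → ℝ := fun x => ‖fderiv ℝ ψ x - a‖ ^ 2 with hS
  have hSb : Bdd S := by
    refine ⟨(((hψ1.continuous_fderiv one_ne_zero).sub continuous_const).norm.pow 2).measurable,
      (L + ‖a‖) ^ 2, fun x => ?_⟩
    rw [abs_of_nonneg (sq_nonneg _)]
    exact pow_le_pow_left₀ (norm_nonneg _) ((norm_sub_le _ _).trans (by linarith [hψL x])) 2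
  set χb : Sp d → ℝ := fwd (h / 2) χ with hχb
  have hlin : ∀ x : Sp d, ∫ w, a (x + √(h / 2) • w) ∂gd d = a x := fun x => by
    have hid : Integrable (fun w : Sp d => w) (gd d) := IsGaussian.integrable_id
    have hw : Integrable (fun w => √(h / 2) * a w) (gd d) :=
      (a.integrable_comp hid).const_mul _
    simp only [map_add, map_smul, smul_eq_mul]
    rw [integral_add (integrable_const _) hw, integral_const_mul, a.integral_comp_comm hid]
    simp [integral_id_stdGaussian, gam]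
  have hψb : ∀ x, χb x = fwd h g x - a x := fun x => by
    have hi : Integrable (fun w => a (x + √(h / 2) • w)) (gd d) :=
      a.integrable_comp ((integrable_const x).add (IsGaussian.integrable_id.smul √(h / 2)))
    obtain ⟨M, hM⟩ := hψ.2
    rw [hχb, fwd_eq]
    simp only [hχ]
    rw [integral_sub (f := fun w => ψ (x + √(h / 2) • w)) (g := fun w => a (x + √(h / 2) • w))
      (.of_bound (hψ.1.comp (by fun_prop)).aestronglyMeasurable M
      (Eventually.of_forall fun w => hM _)) hi, hlin, ← fwd_eq, fwd_fwd hh2 hh2 hg x, add_halves]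
  obtain ⟨hf1, hfL, hfu⟩ := fderiv_fwd h hg1 hg hL
  have hfb : Bdd (fwd h g) := (markov_fwd h).bdd hg
  have hb1 : ContDiff ℝ 1 χb := by
    rw [funext hψb]
    exact hf1.sub a.contDiff
  have hbd : ∀ x, fderiv ℝ χb x = fderiv ℝ (fwd h g) x - a := fun x => by
    rw [funext hψb, fderiv_fun_sub (hf1.differentiable one_ne_zero x) a.differentiableAt,
      ContinuousLinearMap.fderiv]
  obtain ⟨hbm, hbv⟩ := rgo_poincare hV hh.le y hb1 (L := L + ‖a‖) fun x => by
    rw [hbd]; exact (norm_sub_le _ _).trans (by linarith [hfL x])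
  set c₀ := ∫ x, χb x ∂rgo V h y with hc₀
  refine ⟨c₀, ?_⟩
  -- the inner Poincaré inequality
  have hin : ∀ x, MemLp (fun w => χ (x + √(h / 2) • w)) 2 (gd d) ∧
      ∫ w, (χ (x + √(h / 2) • w) - χb x) ^ 2 ∂gd d ≤ h / 2 * fwd (h / 2) S x := by
    intro x
    have hd : ∀ w : Sp d, HasFDerivAt (fun w => χ (x + √(h / 2) • w))
        ((fderiv ℝ χ (x + √(h / 2) • w)).comp (√(h / 2) • ContinuousLinearMap.id ℝ (Sp d))) w :=
      fun w => (hχ1.differentiable one_ne_zero _).hasFDerivAt.comp w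
        (((hasFDerivAt_id w).const_smul √(h / 2)).const_add x)
    have hn : ∀ w, ‖fderiv ℝ (fun w => χ (x + √(h / 2) • w)) w‖ =
        √(h / 2) * ‖fderiv ℝ χ (x + √(h / 2) • w)‖ := fun w => by
      rw [(hd w).fderiv, ContinuousLinearMap.comp_smul, ContinuousLinearMap.comp_id, norm_smul,
        norm_of_nonneg (Real.sqrt_nonneg _)]
    have h1 := gibbs_poincare (isPot_zero (d := d)) le_rfl (f := fun w => χ (x + √(h / 2) • w))
      (by fun_prop) (A := √(h / 2) * (L + ‖a‖)) (B := 0) (fun w => by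
        rw [hn, zero_mul, add_zero]
        exact mul_le_mul_of_nonneg_left (hχL _) (Real.sqrt_nonneg _))
    rw [gibbs_zero] at h1
    refine ⟨h1.1, ?_⟩
    rw [hχb, fwd_eq, fwd_eq]
    refine h1.2.trans_eq ?_
    simp only [hn, hχd, mul_pow, Real.sq_sqrt hh2, hS, integral_const_mul, add_zero, inv_one,
      one_mul]
  have hpt : ∀ x, Integrable (fun w => (χ (x + √(h / 2) • w) - c₀) ^ 2) (gd d) ∧
      ∫ w, (χ (x + √(h / 2) • w) - c₀) ^ 2 ∂gd d ≤
        h / 2 * fwd (h / 2) S x + (χb x - c₀) ^ 2 := by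
    intro x
    set u := fun w => χ (x + √(h / 2) • w)
    have hu : MemLp u 2 (gd d) := (hin x).1
    have m : ∫ w, u w ∂gd d = χb x := (fwd_eq (h / 2) χ x).symm
    have i1 : Integrable (fun w => (u w - χb x) ^ 2) (gd d) :=
      (hu.sub (memLp_const (χb x))).integrable_sq
    have i2 : Integrable (fun w => 2 * (χb x - c₀) * (u w - χb x)) (gd d) :=
      ((hu.integrable (by norm_num)).sub (integrable_const _)).const_mul _
    have i3 : Integrable (fun w => (u w - χb x) ^ 2 + 2 * (χb x - c₀) * (u w - χb x)) (gd d) :=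
      i1.add i2
    refine ⟨(hu.sub (memLp_const c₀)).integrable_sq, ?_⟩
    calc ∫ w, (u w - c₀) ^ 2 ∂gd d
        = ∫ w, ((u w - χb x) ^ 2 + 2 * (χb x - c₀) * (u w - χb x)) + (χb x - c₀) ^ 2 ∂gd d :=
          integral_congr_ae (Eventually.of_forall fun w => by ring)
      _ = (∫ w, (u w - χb x) ^ 2 ∂gd d) + (χb x - c₀) ^ 2 := by
          rw [integral_add i3 (integrable_const _), integral_add i1 i2, integral_const_mul,
            integral_sub (hu.integrable (by norm_num)) (integrable_const _), m]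
          simp
      _ ≤ _ := add_le_add_left (hin x).2 _
  have hSi : Integrable (fwd (h / 2) S) (rgo V h y) := ((markov_fwd _).bdd hSb).integrable _
  have hbi : Integrable (fun x => (χb x - c₀) ^ 2) (rgo V h y) :=
    (hbm.sub (memLp_const c₀)).integrable_sq
  have hmi : Integrable (fun x => h / 2 * fwd (h / 2) S x + (χb x - c₀) ^ 2) (rgo V h y) :=
    (hSi.const_mul _).add hbi
  have hmeas : Measurable fun p : Sp d × Sp d => (χ (p.1 + √(h / 2) • p.2) - c₀) ^ 2 := by
    have := hχ1.continuous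
    fun_prop
  have hprod : Integrable (fun p : Sp d × Sp d => (χ (p.1 + √(h / 2) • p.2) - c₀) ^ 2)
      ((rgo V h y).prod (gd d)) := by
    refine (integrable_prod_iff hmeas.aestronglyMeasurable).2
      ⟨Eventually.of_forall fun x => (hpt x).1, hmi.mono'
        hmeas.stronglyMeasurable.norm.integral_prod_right'.aestronglyMeasurable
        (Eventually.of_forall fun x => ?_)⟩
    simp only [norm_eq_abs, abs_sq]
    rw [abs_of_nonneg (integral_nonneg fun w => sq_nonneg _)]
    exact (hpt x).2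
  have hLp : MemLp (fun x => χ x - c₀) 2 (halfLaw V h y) := by
    have hm : Measurable fun x => χ x - c₀ := (hχ1.continuous.sub continuous_const).measurable
    rw [memLp_two_iff_integrable_sq hm.aestronglyMeasurable, halfLaw,
      integrable_map_measure (hm.pow_const 2).aestronglyMeasurable (by fun_prop)]
    exact hprod
  refine ⟨hLp, ?_⟩
  have e0 : ∫ x, (χ x - c₀) ^ 2 ∂halfLaw V h y ≤
      h / 2 * ∫ x, S x ∂halfLaw V h y + h * ∫ x, S x ∂halfLaw V h y := by
    have hm2 : Measurable fun x => (χ x - c₀) ^ 2 :=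
      ((hχ1.continuous.sub continuous_const).pow 2).measurable
    rw [(integral_halfLaw hV hh.le y hm2 hLp.integrable_sq).1,
      (integral_halfLaw hV hh.le y hSb.1 (hSb.integrable _)).1]
    refine (integral_mono (integral_halfLaw hV hh.le y hm2 hLp.integrable_sq).2 hmi fun x => ?_).trans ?_
    · rw [fwd_eq]; exact (hpt x).2
    rw [integral_add (hSi.const_mul _) hbi, integral_const_mul]
    refine add_le_add_right (hbv.trans (mul_le_mul (div_le_self hh.le (by linarith)) ?_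
      (integral_nonneg (gsq_nonneg χb)) hh.le)) _
    refine integral_mono ((bdd_gsq hb1 (L := L + ‖a‖) fun x => ?_).integrable _) hSi fun x => ?_
    · rw [hbd]; exact (norm_sub_le _ _).trans (by linarith [hfL x])
    · have h1 := gsq_fwd_le hψ1 hψ hψL (h / 2) a x
      have h2 : fwd (h / 2) ψ = fwd h g :=
        funext fun z => by rw [fwd_fwd hh2 hh2 hg z, add_halves]
      rw [h2] at h1
      simpa only [gsq, hbd] using h1
  -- the average squared gradient defect
  set v := (InnerProductSpace.toDual ℝ (Sp d)).symm a with hv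
  have hav : ∀ x, a x = ⟪v, x⟫ := fun x => (InnerProductSpace.toDual_symm_apply).symm
  have hvn : ‖v‖ = ‖a‖ := LinearIsometryEquiv.norm_map _ a
  have hexp : ∀ x, S x = gsq ψ x - 2 * fderiv ℝ ψ x v + ‖a‖ ^ 2 := by
    intro x
    set w := (InnerProductSpace.toDual ℝ (Sp d)).symm (fderiv ℝ ψ x)
    have h1 : ‖fderiv ℝ ψ x - a‖ = ‖w - v‖ := by
      rw [← LinearIsometryEquiv.norm_map (InnerProductSpace.toDual ℝ (Sp d)).symm, map_sub]
    have h2 : ⟪w, v⟫ = fderiv ℝ ψ x v := InnerProductSpace.toDual_symm_apply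
    simp only [hS, gsq]
    rw [h1, norm_sub_sq_real, h2, hvn, LinearIsometryEquiv.norm_map]
  have hdv : Bdd fun x => fderiv ℝ g x v := by
    refine ⟨((hg1.continuous_fderiv one_ne_zero).clm_apply continuous_const).measurable,
      L * ‖v‖, fun x => ((fderiv ℝ g x).le_opNorm v).trans
        (mul_le_mul_of_nonneg_right (hL x) (norm_nonneg v))⟩
  have hψv : (fun x => fderiv ℝ ψ x v) = fwd (h / 2) fun z => fderiv ℝ g z v :=
    funext fun x => hψu x v
  have hψg : Bdd (gsq ψ) := bdd_gsq hψ1 hψL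
  have hψvb : Bdd fun x => fderiv ℝ ψ x v := hψv ▸ (markov_fwd _).bdd hdv
  have e1 : ∫ x, S x ∂halfLaw V h y ≤ P - 2 * prox V h (fun z => fderiv ℝ g z v) y + ‖a‖ ^ 2 := by
    have j1 : Integrable (fun x => gsq ψ x - 2 * fderiv ℝ ψ x v) (halfLaw V h y) :=
      (hψg.sub (hψvb.const_mul 2)).integrable _
    rw [integral_congr_ae (Eventually.of_forall hexp), integral_add j1 (integrable_const _),
      integral_sub (hψg.integrable _) ((hψvb.const_mul 2).integrable _), integral_const_mul,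
      integral_const, probReal_univ, one_smul]
    refine add_le_add_left (sub_le_sub (le_of_le_of_eq (integral_mono (hψg.integrable _)
      (((markov_fwd _).bdd (bdd_gsq hg1 hL)).integrable _) (gsq_fwd_le' hg1 hg hL _))
      (integral_halfLaw_fwd hV hh.le y (bdd_gsq hg1 hL))) (le_of_eq ?_)) _
    rw [hψv, integral_halfLaw_fwd hV hh.le y hdv]
  have e2 : prox V h (fun z => fderiv ℝ g z v) y ≥ ‖a‖ ^ 2 - 2 * h * √P * ‖a‖ := by
    have h1 := qop_grad_identity hV hh hfb hf1 hfL y v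
    have hq : ∫ x, fderiv ℝ (fwd h g) x v ∂rgo V h y = prox V h (fun z => fderiv ℝ g z v) y :=
      integral_congr_ae (Eventually.of_forall fun x => hfu x v)
    have haa : fderiv ℝ (Qop V h (fwd h g)) y v = ‖a‖ ^ 2 := by
      rw [← hvn, ← real_inner_self_eq_norm_sq, ← hav]; rfl
    have hgl : ∫ x, gsq (fwd h g) x ∂rgo V h y ≤ P :=
      (markov_qop hV hh).mono (bdd_gsq hf1 hfL) ((markov_fwd h).bdd (bdd_gsq hg1 hL))
        (gsq_fwd_le' hg1 hg hL h) y
    rw [hq, haa, hvn] at h1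
    have := (neg_le_of_abs_le h1)
    have h3 : 2 * h * √(∫ x, gsq (fwd h g) x ∂rgo V h y) * ‖a‖ ≤ 2 * h * √P * ‖a‖ := by
      gcongr
    linarith
  have hP0 : 0 ≤ P := (markov_prox hV hh).nonneg (bdd_gsq hg1 hL) (gsq_nonneg g) y
  have e3 : ‖a‖ ≤ √P := by
    refine (abs_norm a).symm.le.trans (Real.abs_le_sqrt ?_)
    refine (le_mul_of_one_le_left (sq_nonneg _) ?_).trans (gsq_prox_contract hV hh hg hg1 hL y)
    nlinarith
  have hag : gsq (prox V h g) y = ‖a‖ ^ 2 := rfl
  have e4 : ∫ x, S x ∂halfLaw V h y ≤ (P - gsq (prox V h g) y) + 4 * h * P := by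
    rw [hag]
    nlinarith [mul_le_mul_of_nonneg_left e3 (mul_nonneg hh.le (Real.sqrt_nonneg P)),
      Real.mul_self_sqrt hP0]
  have hS0 : 0 ≤ ∫ x, S x ∂halfLaw V h y := integral_nonneg fun x => sq_nonneg _
  refine e0.trans ?_
  nlinarith [mul_le_mul_of_nonneg_left e4 hh.le, mul_nonneg hh.le hS0]

end Vale.Agent.P347.Quarter
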