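import Vale.Agent.P347.Quarter.Chain.Weight

/-! # P347: Markov operators on bounded observables -/

open MeasureTheory ProbabilityTheory Real Filter Topology
open scoped RealInnerProductSpace

namespace Vale.Agent.P347.Quarter

variable {d : ℕ}

/-- Measurable and bounded. -/
def Bdd (g : Sp d → ℝ) : Prop := Measurable g ∧ ∃ M, ∀ x, |g x| ≤ M

lemma bdd_const (c : ℝ) : Bdd fun _ : Sp d => c := ⟨measurable_const, |c|, fun _ => le_rfl⟩

lemma Bdd.add {f g : Sp d → ℝ} (hf : Bdd f) (hg : Bdd g) : Bdd fun x => f x + g x := by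
  obtain ⟨hf, M, hM⟩ := hf
  obtain ⟨hg, N, hN⟩ := hg
  exact ⟨hf.add hg, M + N, fun x => (abs_add_le _ _).trans (add_le_add (hM x) (hN x))⟩

lemma Bdd.mul {f g : Sp d → ℝ} (hf : Bdd f) (hg : Bdd g) : Bdd fun x => f x * g x := by
  obtain ⟨hf, M, hM⟩ := hf
  obtain ⟨hg, N, hN⟩ := hg
  refine ⟨hf.mul hg, M * N, fun x => ?_⟩
  rw [abs_mul]
  exact mul_le_mul (hM x) (hN x) (abs_nonneg _) ((abs_nonneg _).trans (hM x))

lemma Bdd.const_mul {f : Sp d → ℝ} (hf : Bdd f) (c : ℝ) : Bdd fun x => c * f x :=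
  (bdd_const c).mul hf

lemma Bdd.sub {f g : Sp d → ℝ} (hf : Bdd f) (hg : Bdd g) : Bdd fun x => f x - g x := by
  simpa [sub_eq_add_neg] using hf.add (hg.const_mul (-1))

lemma Bdd.sq {f : Sp d → ℝ} (hf : Bdd f) : Bdd fun x => f x ^ 2 := by
  simpa [pow_two] using hf.mul hf

lemma Bdd.abs {f : Sp d → ℝ} (hf : Bdd f) : Bdd fun x => |f x| := by
  obtain ⟨hf, M, hM⟩ := hf
  exact ⟨continuous_abs.measurable.comp hf, M, fun x => by simpa using hM x⟩

lemma Bdd.sqrt {f : Sp d → ℝ} (hf : Bdd f) : Bdd fun x => √(f x) := by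
  obtain ⟨hf, M, hM⟩ := hf
  refine ⟨Real.continuous_sqrt.measurable.comp hf, √M, fun x => ?_⟩
  rw [abs_of_nonneg (Real.sqrt_nonneg _)]
  exact Real.sqrt_le_sqrt ((le_abs_self _).trans (hM x))

lemma Bdd.integrable {g : Sp d → ℝ} (hg : Bdd g) (μ : Measure (Sp d)) [IsFiniteMeasure μ] :
    Integrable g μ := by
  obtain ⟨M, hM⟩ := hg.2
  exact .of_bound hg.1.aestronglyMeasurable M (Eventually.of_forall hM)

/-- A positive unital linear operator on bounded observables. -/
structure Markov (T : (Sp d → ℝ) → Sp d → ℝ) : Prop where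
  bdd : ∀ {g}, Bdd g → Bdd (T g)
  add : ∀ {f g}, Bdd f → Bdd g → ∀ y, T (fun x => f x + g x) y = T f y + T g y
  smul : ∀ {f}, Bdd f → ∀ (c : ℝ) y, T (fun x => c * f x) y = c * T f y
  mono : ∀ {f g}, Bdd f → Bdd g → (∀ x, f x ≤ g x) → ∀ y, T f y ≤ T g y
  const : ∀ (c : ℝ) y, T (fun _ => c) y = c

/-- Integration against probability laws. -/
lemma Markov.of_measures {T : (Sp d → ℝ) → Sp d → ℝ} {μ : Sp d → Measure (Sp d)}
    (hμ : ∀ y, IsProbabilityMeasure (μ y)) (hT : ∀ {g}, Measurable g → ∀ y, T g y = ∫ x, g x ∂μ y)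
    (hm : ∀ {g}, Bdd g → Measurable (T g)) : Markov T := by
  refine ⟨fun {g} hg => ⟨hm hg, ?_⟩, fun {f g} hf hg y => ?_, fun {f} hf c y => ?_,
    fun {f g} hf hg hfg y => ?_, fun c y => ?_⟩
  · obtain ⟨M, hM⟩ := hg.2
    refine ⟨M, fun y => ?_⟩
    have := hμ y
    rw [hT hg.1]
    simpa using norm_integral_le_of_norm_le_const (μ := μ y) (f := g) (Eventually.of_forall hM)
  all_goals have := hμ y
  · rw [hT (hf.add hg).1, hT hf.1, hT hg.1, integral_add (hf.integrable _) (hg.integrable _)]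
  · rw [hT (hf.const_mul c).1, hT hf.1, integral_const_mul]
  · rw [hT hf.1, hT hg.1]
    exact integral_mono (hf.integrable _) (hg.integrable _) hfg
  · simp [hT measurable_const]

namespace Markov

variable {T S : (Sp d → ℝ) → Sp d → ℝ}

lemma comp (hT : Markov T) (hS : Markov S) : Markov fun g => T (S g) where
  bdd hg := hT.bdd (hS.bdd hg)
  add hf hg y := by
    rw [funext (hS.add hf hg)]
    exact hT.add (hS.bdd hf) (hS.bdd hg) y
  smul hf c y := by
    rw [funext (hS.smul hf c)]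
    exact hT.smul (hS.bdd hf) c y
  mono hf hg h y := hT.mono (hS.bdd hf) (hS.bdd hg) (hS.mono hf hg h) y
  const c y := by
    rw [funext (hS.const c)]
    exact hT.const c y

protected lemma id : Markov fun g : Sp d → ℝ => g where
  bdd hg := hg
  add _ _ _ := rfl
  smul _ _ _ := rfl
  mono _ _ h := h
  const _ _ := rfl

lemma iterate (hT : Markov T) : ∀ n : ℕ, Markov fun g => T^[n] g
  | 0 => Markov.id
  | n + 1 => by simpa [Function.iterate_succ_apply] using (hT.iterate n).comp hT

lemma sub (hT : Markov T) {f g : Sp d → ℝ} (hf : Bdd f) (hg : Bdd g) (y : Sp d) :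
    T (fun x => f x - g x) y = T f y - T g y := by
  have := hT.add hf (hg.const_mul (-1)) y
  rw [hT.smul hg] at this
  simpa [sub_eq_add_neg] using this

lemma nonneg (hT : Markov T) {f : Sp d → ℝ} (hf : Bdd f) (h : ∀ x, 0 ≤ f x) (y : Sp d) :
    0 ≤ T f y := (hT.const 0 y).symm.trans_le (hT.mono (bdd_const 0) hf h y)

lemma abs_le (hT : Markov T) {f g : Sp d → ℝ} (hf : Bdd f) (hg : Bdd g) (h : ∀ x, |f x| ≤ g x)
    (y : Sp d) : |T f y| ≤ T g y := by
  have h1 := hT.mono hf hg (fun x => (le_abs_self _).trans (h x)) y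
  have h2 := hT.mono (hf.const_mul (-1)) hg
    (fun x => by simpa using (neg_le_abs _).trans (h x)) y
  rw [hT.smul hf] at h2
  exact abs_le'.2 ⟨h1, by linarith⟩

lemma sq_le (hT : Markov T) {f : Sp d → ℝ} (hf : Bdd f) (y : Sp d) :
    T f y ^ 2 ≤ T (fun x => f x ^ 2) y := by
  set t := T f y
  have h1 := hT.mono ((hf.const_mul (2 * t)).sub (bdd_const (t ^ 2))) hf.sq
    (fun x => by nlinarith [sq_nonneg (f x - t)]) y
  rw [hT.sub (hf.const_mul _) (bdd_const _), hT.smul hf, hT.const] at h1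
  nlinarith

lemma abs_le_sqrt (hT : Markov T) {f : Sp d → ℝ} (hf : Bdd f) (y : Sp d) :
    |T f y| ≤ √(T (fun x => f x ^ 2) y) := Real.abs_le_sqrt (hT.sq_le hf y)

end Markov

/-- The forward step is an average over shifts. -/
lemma fwd_eq (h : ℝ) (g : Sp d → ℝ) (x : Sp d) : fwd h g x = ∫ w, g (x + √h • w) ∂gd d := by
  simp [fwd, smth]

lemma markov_fwd (h : ℝ) : Markov (fwd (d := d) h) := by
  refine Markov.of_measures (μ := fun x => (gd d).map fun w => x + √h • w)
    (fun x => Measure.isProbabilityMeasure_map (by fun_prop)) (fun {g} hg x => ?_) (fun {g} hg => ?_)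
  · rw [fwd_eq, integral_map (by fun_prop) hg.aestronglyMeasurable]
  · rw [funext (fwd_eq h g)]
    exact ((hg.1.comp (by fun_prop : Measurable fun p : Sp d × Sp d => p.1 + √h • p.2))
      |>.stronglyMeasurable.integral_prod_right').measurable

lemma markov_eval {Ω : Type*} [MeasurableSpace Ω] (P : Measure Ω) [IsProbabilityMeasure P]
    {z : Ω → Sp d → Sp d} (hz : Measurable (Function.uncurry z)) :
    Markov fun g y => ∫ ω, g (z ω y) ∂P := by
  refine Markov.of_measures (μ := fun y => P.map fun ω => z ω y)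
    (fun y => Measure.isProbabilityMeasure_map (hz.of_uncurry_right).aemeasurable)
    (fun {g} hg y => (integral_map (hz.of_uncurry_right).aemeasurable
      hg.aestronglyMeasurable).symm) (fun {g} hg => ?_)
  exact ((hg.1.comp (hz.comp measurable_swap)).stronglyMeasurable.integral_prod_right').measurable

lemma markov_approx {Ω : Type*} [MeasurableSpace Ω] (P : Measure Ω) [IsProbabilityMeasure P]
    {z : Ω → Sp d → Sp d} (hz : Measurable (Function.uncurry z)) (h : ℝ) :
    Markov (approx P h z) :=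
  (markov_eval P hz).comp (markov_fwd (h / 2))

/-- Two forward steps. -/
lemma fwd_fwd {a b : ℝ} (ha : 0 ≤ a) (hb : 0 ≤ b) {g : Sp d → ℝ} (hg : Bdd g) (x : Sp d) :
    fwd a (fwd b g) x = fwd (a + b) g x := by
  have hm : Measurable fun v : Sp d => g (x + v) := hg.1.comp (by fun_prop)
  have h1 := congrArg (fun μ : Measure (Sp d) => ∫ v, g (x + v) ∂μ)
    (gauss_combine (ι := Fin d) √a √b)
  simp only [Real.sq_sqrt ha, Real.sq_sqrt hb] at h1
  rw [integral_map (by fun_prop) hm.aestronglyMeasurable,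
    integral_map (by fun_prop) hm.aestronglyMeasurable] at h1
  rw [fwd_eq (a + b), ← h1, integral_prod, fwd_eq]
  · exact integral_congr_ae (Eventually.of_forall fun w => by simp [fwd_eq, add_assoc])
  · obtain ⟨M, hM⟩ := hg.2
    exact .of_bound (hm.comp (by fun_prop)).aestronglyMeasurable M
      (Eventually.of_forall fun p => hM _)

/-- The derivative of a forward step. -/
lemma hasFDerivAt_fwd (h : ℝ) {g : Sp d → ℝ} (hg : ContDiff ℝ 1 g) (hb : Bdd g) {L : ℝ}
    (hL : ∀ x, ‖fderiv ℝ g x‖ ≤ L) (x : Sp d) :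
    HasFDerivAt (fwd h g) (∫ w, fderiv ℝ g (x + √h • w) ∂gd d) x := by
  rw [funext (fwd_eq h g)]
  refine hasFDerivAt_integral_of_dominated_of_fderiv_le (s := Set.univ)
    (F := fun y w => g (y + √h • w)) (F' := fun y w => fderiv ℝ g (y + √h • w))
    (bound := fun _ => L) univ_mem
    (Eventually.of_forall fun y => (hb.1.comp (by fun_prop)).aestronglyMeasurable) ?_
    ((hg.continuous_fderiv one_ne_zero).comp (f := fun w => x + √h • w)
      (by fun_prop)).aestronglyMeasurable
    (Eventually.of_forall fun w y _ => hL _) (integrable_const L)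
    (Eventually.of_forall fun w y _ => ?_)
  · obtain ⟨M, hM⟩ := hb.2
    exact .of_bound (hb.1.comp (by fun_prop)).aestronglyMeasurable M
      (Eventually.of_forall fun w => hM _)
  · exact ((hg.differentiable one_ne_zero) (y + √h • w)).hasFDerivAt.comp y
      ((hasFDerivAt_id y).add_const (√h • w))

lemma fderiv_fwd (h : ℝ) {g : Sp d → ℝ} (hg : ContDiff ℝ 1 g) (hb : Bdd g) {L : ℝ}
    (hL : ∀ x, ‖fderiv ℝ g x‖ ≤ L) :
    ContDiff ℝ 1 (fwd h g) ∧ (∀ x, ‖fderiv ℝ (fwd h g) x‖ ≤ L) ∧
      ∀ x u, fderiv ℝ (fwd h g) x u = fwd h (fun z => fderiv ℝ g z u) x := by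
  have hd := hasFDerivAt_fwd h hg hb hL
  have hc := hg.continuous_fderiv one_ne_zero
  refine ⟨contDiff_one_iff_fderiv.2 ⟨fun x => (hd x).differentiableAt, ?_⟩, fun x => ?_,
    fun x u => ?_⟩
  · rw [funext fun x => (hd x).fderiv]
    exact continuous_of_dominated
      (fun x => (hc.comp (f := fun w => x + √h • w) (by fun_prop)).aestronglyMeasurable)
      (fun x => Eventually.of_forall fun w => hL _) (integrable_const L)
      (Eventually.of_forall fun w => hc.comp (f := fun x => x + √h • w) (by fun_prop))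
  · rw [(hd x).fderiv]
    exact (norm_integral_le_of_norm_le_const (Eventually.of_forall fun w => hL _)).trans_eq
      (by simp)
  · rw [(hd x).fderiv, fwd_eq, ContinuousLinearMap.integral_apply]
    exact .of_bound (hc.comp (f := fun w => x + √h • w) (by fun_prop)).aestronglyMeasurable L
      (Eventually.of_forall fun w => hL _)

end Vale.Agent.P347.Quarter
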