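import Vale.Agent.P347.Quarter.Chain.OneStep

/-! # P347: invariance of the target, second moments and tails -/

open MeasureTheory ProbabilityTheory Real Filter Topology
open scoped RealInnerProductSpace

namespace Vale.Agent.P347.Quarter

variable {d : ℕ} {V : Sp d → ℝ} {G : Sp d → Sp d} {H : Sp d → Sp d →L[ℝ] Sp d} {h : ℝ}

/-- The radial integration by parts identity. -/
lemma gibbs_virial {W : Sp d → ℝ} {GW : Sp d → Sp d} {HW : Sp d → Sp d →L[ℝ] Sp d} {lo hi : ℝ}
    (hW : IsPot W GW HW lo hi) (hlo : 0 ≤ lo) {A B : ℝ} (hB : ∀ z, ‖GW z‖ ≤ A + B * ‖z‖) :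
    Integrable (fun z => ‖z‖ ^ 2) (gibbs W) ∧ Integrable (fun z => ‖z‖) (gibbs W) ∧
      Integrable (fun z => ⟪z, GW z⟫) (gibbs W) ∧
        (∫ z, ‖z‖ ^ 2 ∂gibbs W) + ∫ z, ⟪z, GW z⟫ ∂gibbs W = d := by
  have := isProb_gibbs hW hlo
  have h0 := gibbs_exp_norm hW hlo
  have hc : Continuous GW := hW.continuous_grad
  have i1 : Integrable (fun z => ‖z‖) (gibbs W) :=
    (h0 1).mono' (by fun_prop) (Eventually.of_forall fun z => by
      have := add_one_le_exp ‖z‖
      simp; linarith)
  have i2 : Integrable (fun z => ‖z‖ ^ 2) (gibbs W) :=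
    ((h0 1).const_mul 2).mono' (by fun_prop) (Eventually.of_forall fun z => by
      have := quadratic_le_exp_of_nonneg (norm_nonneg z)
      simp; nlinarith [norm_nonneg z])
  have i3 : Integrable (fun z => ⟪z, GW z⟫) (gibbs W) := by
    refine ((i1.const_mul A).add (i2.const_mul B)).mono' (by fun_prop)
      (Eventually.of_forall fun z => ?_)
    rw [norm_eq_abs]
    refine (abs_real_inner_le_norm z (GW z)).trans
      ((mul_le_mul_of_nonneg_left (hB z) (norm_nonneg z)).trans_eq ?_)
    simp; ring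
  refine ⟨i2, i1, i3, ?_⟩
  set b := EuclideanSpace.basisFun (Fin d) ℝ
  have key : ∀ i, ∫ z, ⟪z, b i⟫ * ⟪b i, z + GW z⟫ ∂gibbs W = 1 := by
    intro i
    have hbi : ‖b i‖ = 1 := b.orthonormal.1 i
    have e := gibbs_ibp hW hlo (F := fun z => ⟪b i, z⟫) (innerSL ℝ (b i)).contDiff (C := 1) (K := 1)
      (fun z => by
        have h1 := abs_real_inner_le_norm (b i) z
        rw [hbi, one_mul] at h1
        have := add_one_le_exp ‖z‖
        simp only [one_mul]
        linarith)
      (fun z => by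
        rw [show (fun z => ⟪b i, z⟫) = innerSL ℝ (b i) from rfl, ContinuousLinearMap.fderiv,
          innerSL_apply_norm, hbi]
        simp) (b i)
    rw [show (fun z => ⟪b i, z⟫) = innerSL ℝ (b i) from rfl] at e
    simp only [ContinuousLinearMap.fderiv, innerSL_apply_apply, real_inner_self_eq_norm_sq, hbi,
      one_pow, integral_const, probReal_univ, one_smul] at e
    refine Eq.trans ?_ e.symm
    exact integral_congr_ae (Eventually.of_forall fun z => by
      simp only; rw [real_inner_comm (b i) z, real_inner_comm (b i) (z + GW z)])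
  have hi : ∀ i, Integrable (fun z => ⟪z, b i⟫ * ⟪b i, z + GW z⟫) (gibbs W) := by
    intro i
    refine ((i1.const_mul A).add (i2.const_mul (1 + B))).mono' (by fun_prop)
      (Eventually.of_forall fun z => ?_)
    have hbi : ‖b i‖ = 1 := b.orthonormal.1 i
    have h1 := abs_real_inner_le_norm z (b i)
    have h2 := abs_real_inner_le_norm (b i) (z + GW z)
    rw [hbi] at h1 h2
    rw [norm_mul, norm_eq_abs, norm_eq_abs]
    refine (mul_le_mul (h1.trans_eq (mul_one _)) (h2.trans_eq (one_mul _)) (abs_nonneg _)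
      (norm_nonneg z)).trans ((mul_le_mul_of_nonneg_left ((norm_add_le z (GW z)).trans
        (add_le_add le_rfl (hB z))) (norm_nonneg z)).trans_eq ?_)
    simp; ring
  calc _ = ∫ z, ∑ i, ⟪z, b i⟫ * ⟪b i, z + GW z⟫ ∂gibbs W := by
        rw [← integral_add i2 i3]
        refine integral_congr_ae (Eventually.of_forall fun z => ?_)
        simp only; rw [b.sum_inner_mul_inner, inner_add_right, real_inner_self_eq_norm_sq]
    _ = d := by simp [integral_finsetSum _ fun i _ => hi i, key]

lemma inner_grad_ge (hV : IsPot V G H 1 2) (hG0 : G 0 = 0) (x : Sp d) : ‖x‖ ^ 2 ≤ ⟪G x, x⟫ := by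
  have hd : ∀ t : ℝ, HasDerivAt (fun t : ℝ => ⟪G (t • x), x⟫ - t * ‖x‖ ^ 2)
      (⟪H (t • x) x, x⟫ - ‖x‖ ^ 2) t := by
    intro t
    have h1 := (hV.hasHess (t • x)).comp_hasDerivAt t ((hasDerivAt_id t).smul_const x)
    simpa [Pi.sub_def] using (h1.inner ℝ (hasDerivAt_const t x)).sub ((hasDerivAt_id t).mul_const (‖x‖ ^ 2))
  have := monotone_of_hasDerivAt_nonneg hd (fun t => by
    have := hV.loHess (t • x) x
    simp only [Pi.zero_apply]
    linarith) zero_le_one
  simp [hG0] at this
  linarith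

/-- Second moment of the oracle. -/
lemma rgo_second_moment (hV : IsPot V G H 1 2) (hG0 : G 0 = 0) (hh : 0 < h) (y : Sp d) :
    Integrable (fun x => ‖x‖ ^ 2) (rgo V h y) ∧
      ∫ x, ‖x‖ ^ 2 ∂rgo V h y ≤ (2 * h * d + ‖y‖ ^ 2) / (1 + 2 * h) := by
  have hW := isPot_rgoW hV hh.le y
  have := isProb_gibbs hW hh.le
  have hV0 := hV.mono zero_le_one
  have hs := Real.sqrt_nonneg h
  obtain ⟨i2, i1, i3, hvir⟩ := gibbs_virial hW hh.le (A := √h * (2 * ‖y‖)) (B := √h * (2 * √h))
    fun z => by
      rw [norm_smul, norm_of_nonneg hs]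
      have h1 := hV0.norm_grad_le zero_le_two (y + √h • z)
      rw [hG0, norm_zero, zero_add] at h1
      have h2 := norm_add_le y (√h • z)
      rw [norm_smul, norm_of_nonneg hs] at h2
      calc √h * ‖G (y + √h • z)‖ ≤ √h * (2 * (‖y‖ + √h * ‖z‖)) := by gcongr; linarith
        _ = _ := by ring
  set μ := gibbs fun z => V (y + √h • z)
  have hq : Integrable (fun z => ‖y + √h • z‖ ^ 2) μ := by
    refine (((integrable_const (2 * ‖y‖ ^ 2)).add (i2.const_mul (2 * h)))).mono' (by fun_prop)
      (Eventually.of_forall fun z => ?_)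
    have h2 := norm_add_le y (√h • z)
    rw [norm_smul, norm_of_nonneg hs] at h2
    rw [norm_of_nonneg (sq_nonneg _)]
    simp only [Pi.add_apply]
    nlinarith [pow_le_pow_left₀ (norm_nonneg _) h2 2, sq_nonneg (‖y‖ - √h * ‖z‖),
      Real.mul_self_sqrt hh.le]
  have hm : Continuous fun x : Sp d => ‖x‖ ^ 2 := by fun_prop
  refine ⟨(integrable_map_measure hm.aestronglyMeasurable (by fun_prop)).2 hq, ?_⟩
  rw [integral_comp_rgo y hm.measurable, le_div_iff₀ (by linarith)]
  have ibp := gibbs_ibp hW hh.le (F := fun _ => (1 : ℝ)) contDiff_const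
    (C := 1) (K := 0) (by simp) (by simp) y
  simp only [fderiv_fun_const, Pi.zero_apply, zero_apply, integral_zero, one_mul] at ibp
  set R : Sp d → ℝ := fun z => ⟪z + √h • G (y + √h • z), y⟫ with hR
  have iR : Integrable R μ := by
    have hGc := hV0.continuous_grad
    refine ((i1.const_mul (‖y‖ * (1 + 2 * h))).add
      (integrable_const (‖y‖ * (√h * (2 * ‖y‖))))).mono' (by fun_prop)
      (Eventually.of_forall fun z => ?_)
    have h1 := hV0.norm_grad_le zero_le_two (y + √h • z)
    rw [hG0, norm_zero, zero_add] at h1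
    have h2 := norm_add_le y (√h • z)
    rw [norm_smul, norm_of_nonneg hs] at h2
    rw [norm_eq_abs]
    refine (abs_real_inner_le_norm _ _).trans ?_
    have h3 : ‖z + √h • G (y + √h • z)‖ ≤ ‖z‖ + √h * (2 * (‖y‖ + √h * ‖z‖)) := by
      refine (norm_add_le _ _).trans ?_
      rw [norm_smul, norm_of_nonneg hs]
      gcongr
      linarith
    refine (mul_le_mul_of_nonneg_right h3 (norm_nonneg y)).trans_eq ?_
    simp only [Pi.add_apply]
    linear_combination 2 * ‖z‖ * ‖y‖ * Real.mul_self_sqrt hh.le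
  have hle : ∀ z, (1 + 2 * h) * ‖y + √h • z‖ ^ 2 - ‖y‖ ^ 2 ≤
      (2 * h * ‖z‖ ^ 2 + 2 * h * ⟪z, √h • G (y + √h • z)⟫) + 2 * √h * R z := by
    intro z
    have h1 := inner_grad_ge hV hG0 (y + √h • z)
    rw [inner_add_right, real_inner_smul_right, real_inner_comm z] at h1
    have h2 := norm_add_sq_real y (√h • z)
    rw [real_inner_smul_right, norm_smul, mul_pow, norm_eq_abs, sq_abs, Real.sq_sqrt hh.le] at h2
    simp only [hR, inner_add_left, real_inner_smul_left, real_inner_smul_right]
    have hc := real_inner_comm y z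
    have h3 := mul_le_mul_of_nonneg_left h1 hh.le
    have h4 := real_inner_comm (G (y + √h • z)) z
    have h6 : 2 * √h * (√h * ⟪G (y + √h • z), y⟫) = 2 * h * ⟪G (y + √h • z), y⟫ := by
      rw [← mul_assoc, mul_assoc 2, Real.mul_self_sqrt hh.le]
    rw [mul_add (2 * √h), h6]
    linarith [mul_nonneg hh.le (sq_nonneg ‖z‖), congrArg (fun r => h * √h * r) h4, congrArg (fun r => √h * r) hc, h3, h2]
  have j1 : Integrable (fun z => 2 * h * ‖z‖ ^ 2 + 2 * h * ⟪z, √h • G (y + √h • z)⟫) μ :=
    (i2.const_mul _).add (i3.const_mul _)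
  have hint : Integrable (fun z => (2 * h * ‖z‖ ^ 2 + 2 * h * ⟪z, √h • G (y + √h • z)⟫) +
      2 * √h * R z) μ := j1.add (iR.const_mul _)
  have := integral_mono
    (f := fun z => (1 + 2 * h) * ‖y + √h • z‖ ^ 2 - ‖y‖ ^ 2)
    ((hq.const_mul (1 + 2 * h)).sub (integrable_const (‖y‖ ^ 2))) hint hle
  rw [integral_sub (hq.const_mul _) (integrable_const _), integral_add j1 (iR.const_mul _),
    integral_add (i2.const_mul _) (i3.const_mul _), integral_const_mul, integral_const_mul,
    integral_const_mul, integral_const_mul, integral_const, probReal_univ, one_smul, ← mul_add,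
    hvir, ← ibp, mul_zero, add_zero] at this
  linarith

end Vale.Agent.P347.Quarter
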