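import Vale.Agent.P347.Quarter.Tilt
import Vale.Agent.P347.Quarter.Smooth

/-! # P347: the oracle and the target as densities -/

open MeasureTheory ProbabilityTheory Real Filter Topology
open scoped RealInnerProductSpace

namespace Vale.Agent.P347.Quarter

variable {d : ℕ} {V : Sp d → ℝ} {G : Sp d → Sp d} {H : Sp d → Sp d →L[ℝ] Sp d}

lemma IsPot.continuous_pot {lo hi : ℝ} (hV : IsPot V G H lo hi) : Continuous V :=
  continuous_iff_continuousAt.2 fun x => (hV.hasGrad x).continuousAt

/-- The potential of the oracle at `y`, in units of `√h`. -/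
lemma isPot_rgoW (hV : IsPot V G H 1 2) {h : ℝ} (hh : 0 ≤ h) (y : Sp d) :
    IsPot (fun z => V (y + √h • z)) (fun z => √h • G (y + √h • z))
      (fun z => h • H (y + √h • z)) h (2 * h) := by
  have hl : ∀ z : Sp d, HasFDerivAt (fun z : Sp d => y + √h • z)
      (√h • ContinuousLinearMap.id ℝ (Sp d)) z := fun z =>
    ((hasFDerivAt_id z).const_smul √h).const_add y
  refine ⟨fun z => ?_, fun z => ?_, ?_, fun z u v => ?_, fun z v => ?_, fun z v => ?_⟩
  · refine ((hV.hasGrad _).comp z (hl z)).congr_fderiv ?_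
    ext v
    simp
  · refine (((hV.hasHess _).comp z (hl z)).const_smul √h).congr_fderiv ?_
    ext1 v
    simp [smul_smul, Real.mul_self_sqrt hh]
  · exact (hV.contHess.comp (f := fun z : Sp d => y + √h • z) (by fun_prop)).const_smul h
  · simp [real_inner_smul_left, real_inner_smul_right, hV.symHess]
  · rw [smul_apply, real_inner_smul_left]
    nlinarith [mul_le_mul_of_nonneg_left (hV.loHess (y + √h • z) v) hh]
  · rw [smul_apply, real_inner_smul_left]
    nlinarith [mul_le_mul_of_nonneg_left (hV.hiHess (y + √h • z) v) hh]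

/-- The potential of the target against the Gaussian law. -/
lemma isPot_piW (hV : IsPot V G H 1 2) :
    IsPot (fun x => V x - ‖x‖ ^ 2 / 2) (fun x => G x - x)
      (fun x => H x - ContinuousLinearMap.id ℝ (Sp d)) 0 1 := by
  refine ⟨fun z => ?_, fun z => ?_, ?_, fun z u v => ?_, fun z v => ?_, fun z v => ?_⟩
  · have h1 := (hV.hasGrad z).sub ((hasStrictFDerivAt_norm_sq z).hasFDerivAt.mul_const (1 / 2 : ℝ))
    refine (h1.congr_of_eventuallyEq (Eventually.of_forall fun x => ?_)).congr_fderiv ?_
    · simp; ring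
    · ext v
      simp
  · exact (hV.hasHess z).sub (hasFDerivAt_id z)
  · exact hV.contHess.sub continuous_const
  · simp [inner_sub_left, inner_sub_right, hV.symHess]
  · have := hV.loHess z v
    simp [inner_sub_left]
    linarith
  · have := hV.hiHess z v
    simp [inner_sub_left]
    linarith

lemma integrable_exp_neg {W : Sp d → ℝ} {GW : Sp d → Sp d} {HW : Sp d → Sp d →L[ℝ] Sp d}
    {lo hi : ℝ} (hW : IsPot W GW HW lo hi) (hlo : 0 ≤ lo) :
    Integrable (fun x => exp (-W x)) (gd d) := by
  by_contra hc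
  have h1 := (isProb_gibbs hW hlo).measure_univ
  rw [gibbs, tilted_of_not_integrable hc] at h1
  simp at h1

/-- The unnormalised density of the oracle at `y`. -/
noncomputable def wgt (V : Sp d → ℝ) (h : ℝ) (y x : Sp d) : ℝ :=
  exp (-V x - ‖x - y‖ ^ 2 / (2 * h))

lemma wgt_pos (h : ℝ) (y x : Sp d) : 0 < wgt V h y x := exp_pos _

lemma wgt_le {h : ℝ} (hh : 0 < h) (y x : Sp d) : wgt V h y x ≤ exp (-V x) := by
  apply exp_le_exp.2
  have : 0 ≤ ‖x - y‖ ^ 2 / (2 * h) := by positivity
  linarith

lemma continuous_wgt (hV : IsPot V G H 1 2) (h : ℝ) (y : Sp d) : Continuous (wgt V h y) := by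
  have := hV.continuous_pot
  unfold wgt
  fun_prop

/-- Integrals against the Gaussian law after tilting by `V - ‖·‖²/2` are integrals against
`exp (-V)`. -/
lemma gdensity_mul_piW (x : Sp d) :
    gdensity x * exp (-(V x - ‖x‖ ^ 2 / 2)) = (√(2 * π))⁻¹ ^ d * exp (-V x) := by
  rw [gdensity, Fintype.card_fin, mul_assoc, ← exp_add]
  congr 2
  ring

lemma integrable_exp_neg_pot (hV : IsPot V G H 1 2) :
    Integrable (fun x => exp (-V x)) ∧ Integrable (fun x => ‖x‖ * exp (-V x)) ∧
      Integrable (fun x => ‖x‖ ^ 2 * exp (-V x)) := by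
  have hc : (√(2 * π))⁻¹ ^ d ≠ 0 := by positivity
  have key : ∀ p : Sp d → ℝ, Integrable p ((gibbs fun x => V x - ‖x‖ ^ 2 / 2)) →
      Integrable fun x => p x * exp (-V x) := by
    intro p hp
    rw [gibbs, integrable_tilted_iff] at hp
    rotate_left
    · exact integrable_exp_neg (isPot_piW hV) le_rfl
    have h1 := (integrable_gam_iff.1 hp).const_mul ((√(2 * π))⁻¹ ^ d)⁻¹
    refine h1.congr (Eventually.of_forall fun x => ?_)
    simp only [smul_eq_mul, ← mul_assoc]
    rw [mul_assoc _ (gdensity x), gdensity_mul_piW, ← mul_assoc, inv_mul_cancel₀ hc, one_mul,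
      mul_comm]
  have h0 := gibbs_exp_norm (isPot_piW hV) le_rfl
  have := isProb_gibbs (isPot_piW hV) le_rfl
  refine ⟨by simpa using key _ (integrable_const (1 : ℝ)), key _ ?_, key _ ?_⟩
  · exact ((h0 1).mono' (by fun_prop) (Eventually.of_forall fun x => by
      have := add_one_le_exp ‖x‖
      simp; linarith))
  · exact (((h0 1).const_mul 2).mono' (by fun_prop) (Eventually.of_forall fun x => by
      have := quadratic_le_exp_of_nonneg (norm_nonneg x)
      simp; nlinarith [norm_nonneg x]))

lemma integrable_mul_wgt (hV : IsPot V G H 1 2) {h : ℝ} (hh : 0 < h) (y : Sp d) {g : Sp d → ℝ}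
    (hg : AEStronglyMeasurable g) {A B : ℝ} (hb : ∀ x, |g x| ≤ A + B * ‖x‖ ^ 2) :
    Integrable fun x => g x * wgt V h y x := by
  obtain ⟨i0, -, i2⟩ := integrable_exp_neg_pot hV
  refine ((i0.const_mul A).add (i2.const_mul B)).mono'
    (hg.mul (continuous_wgt hV h y).aestronglyMeasurable) (Eventually.of_forall fun x => ?_)
  rw [norm_mul, norm_eq_abs, Real.norm_of_nonneg (wgt_pos h y x).le]
  exact (mul_le_mul (hb x) (wgt_le hh y x) (wgt_pos h y x).le
    ((abs_nonneg _).trans (hb x))).trans_eq (by simp; ring)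

lemma norm_wgt_integral_pos (hV : IsPot V G H 1 2) {h : ℝ} (hh : 0 < h) (y : Sp d) :
    0 < ∫ x, wgt V h y x := by
  have hi := integrable_mul_wgt hV hh y (g := fun _ => 1) aestronglyMeasurable_const
    (A := 1) (B := 0) (by simp)
  simp only [one_mul] at hi
  exact integral_pos_of_integrable_nonneg_nonzero (x := 0) (continuous_wgt hV h y) hi
    (fun x => (wgt_pos h y x).le) (wgt_pos h y 0).ne'

/-- The oracle as a density. -/
theorem integral_rgo {h : ℝ} (hh : 0 < h) (y : Sp d) {g : Sp d → ℝ}
    (hg : Measurable g) :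
    ∫ x, g x ∂rgo V h y = (∫ x, g x * wgt V h y x) / ∫ x, wgt V h y x := by
  have hs : √h ≠ 0 := Real.sqrt_ne_zero'.2 hh
  have key : ∀ g : Sp d → ℝ, ∫ z, g (y + √h • z) * exp (-V (y + √h • z)) ∂gd d =
      (√(2 * π))⁻¹ ^ d * |((√h) ^ d)⁻¹| * ∫ x, g x * wgt V h y x := by
    intro g
    rw [integral_gam]
    have e : ∀ z : Sp d, gdensity z * (g (y + √h • z) * exp (-V (y + √h • z))) =
        (√(2 * π))⁻¹ ^ d * (g (y + √h • z) * wgt V h y (y + √h • z)) := by
      intro z
      have e' : -V (y + √h • z) - ‖(y + √h • z) - y‖ ^ 2 / (2 * h) =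
          -(1 / 2) * ‖z‖ ^ 2 + -V (y + √h • z) := by
        rw [add_sub_cancel_left, norm_smul, mul_pow, norm_eq_abs, sq_abs, Real.sq_sqrt hh.le]
        field_simp
        ring
      rw [gdensity, wgt, Fintype.card_fin, e', exp_add]
      ring
    rw [integral_congr_ae (Eventually.of_forall e), integral_const_mul,
      Measure.integral_comp_smul volume (fun x => g (y + x) * wgt V h y (y + x)),
      integral_add_left_eq_self (fun x => g x * wgt V h y x), finrank_euclideanSpace_fin,
      smul_eq_mul, mul_assoc]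
  rw [rgo, integral_map (by fun_prop) hg.aestronglyMeasurable, gibbs, integral_tilted]
  simp only [smul_eq_mul, div_mul_eq_mul_div, integral_div]
  have e1 := key fun _ => 1
  simp only [one_mul] at e1
  rw [e1, integral_congr_ae (Eventually.of_forall fun z => mul_comm _ (g (y + √h • z))), key g]
  exact mul_div_mul_left _ _ (by positivity)

end Vale.Agent.P347.Quarter
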